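import Vale.Agent.P259.Real.Order
import Mathlib.Topology.Homotopy.Contractible
import Mathlib.CategoryTheory.Limits.Shapes.IsTerminal
import Mathlib.CategoryTheory.PUnit
import Mathlib.CategoryTheory.IsConnected
import Mathlib.Topology.Connected.PathConnected

/-!
Homotopy invariance of classifying spaces: a natural transformation gives a homotopy, a terminal
or initial object gives contractibility, and every point is joined to a vertex. (P259.)
-/

namespace Vale.Agent.P259.Real

open CategoryTheory Finset

universe v u v' u'

variable {C : Type u} [Category.{v} C] {D : Type u'} [Category.{v'} D]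

/-- Two layers of a chain. -/
@[ext]
structure Layer (p : ℕ) where
  /-- The position in the chain. -/
  pos : Fin (p + 1)
  /-- The layer. -/
  up : Bool

namespace Layer

variable {p q : ℕ}

instance : PartialOrder (Layer p) :=
  PartialOrder.lift (fun a => (a.pos, a.up)) fun a b h => by
    simp only [Prod.mk.injEq] at h
    exact Layer.ext h.1 h.2

instance : Fintype (Layer p) :=
  Fintype.ofEquiv (Fin (p + 1) × Bool)
    ⟨fun a => ⟨a.1, a.2⟩, fun a => (a.pos, a.up), fun _ => rfl, fun _ => rfl⟩

lemma le_pos {a b : Layer p} (h : a ≤ b) : a.pos ≤ b.pos :=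
  (show (a.pos, a.up) ≤ (b.pos, b.up) from h).1

/-- A face acting on both layers. -/
def lift (δ : Face p q) (a : Layer p) : Layer q := ⟨δ a.pos, a.up⟩

lemma lift_strictMono (δ : Face p q) : StrictMono (lift δ) := by
  refine Monotone.strictMono_of_injective ?_ fun a b h => ?_
  · intro a b h
    exact show (δ a.pos, a.up) ≤ (δ b.pos, b.up) from
      ⟨δ.monotone (le_pos h), (show (a.pos, a.up) ≤ (b.pos, b.up) from h).2⟩
  · have h1 : δ a.pos = δ b.pos := congrArg Layer.pos h
    have h2 : a.up = b.up := (congrArg Layer.up h :)
    exact Layer.ext (δ.injective h1) h2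

/-- The inclusion of one layer. -/
def incl (e : Bool) (j : Fin (p + 1)) : Layer p := ⟨j, e⟩

lemma incl_strictMono (e : Bool) : StrictMono (incl (p := p) e) := by
  refine Monotone.strictMono_of_injective ?_ fun a b h => congrArg Layer.pos h
  intro a b h
  exact show (a, e) ≤ (b, e) from ⟨h, le_rfl⟩

/-- The path of the prism switching layers at `i`. -/
def path (i : Fin (p + 1)) (k : Fin (p + 2)) : Layer p :=
  if h : k.1 ≤ i.1 then ⟨⟨k.1, by omega⟩, false⟩ else ⟨⟨k.1 - 1, by omega⟩, true⟩

lemma path_strictMono (i : Fin (p + 1)) : StrictMono (path i) := by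
  intro a b hab
  have hab' : a.1 < b.1 := hab
  refine lt_of_le_of_ne ?_ fun h => ?_
  · show ((path i a).pos, (path i a).up) ≤ ((path i b).pos, (path i b).up)
    unfold path
    split_ifs with ha hb hb
    · exact ⟨show a.1 ≤ b.1 by omega, le_rfl⟩
    · exact ⟨show a.1 ≤ b.1 - 1 by omega, Bool.false_le _⟩
    · omega
    · exact ⟨show a.1 - 1 ≤ b.1 - 1 by omega, le_rfl⟩
  · have h1 := congrArg Layer.up h
    have h2 := congrArg (fun x : Layer p => (x.pos : ℕ)) h
    unfold path at h1 h2
    split_ifs at h1 h2 <;> simp_all <;> omega

end Layer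

section Weights

variable {p q : ℕ}

/-- The sum of the weights before a position. -/
noncomputable def before (t : Simp p) (j : Fin (p + 1)) : ℝ := ∑ i ∈ Iio j, t i

lemma continuous_before (j : Fin (p + 1)) : Continuous fun t : Simp p => before t j :=
  continuous_finsetSum _ fun i _ => continuous_coord i

lemma before_nonneg (t : Simp p) (j : Fin (p + 1)) : 0 ≤ before t j :=
  sum_nonneg fun i _ => stdSimplex.zero_le t i

lemma before_add (t : Simp p) (j : Fin (p + 1)) : before t j + t j = ∑ i ∈ Iic j, t i := by
  rw [Finset.Iic_eq_cons_Iio, sum_cons, before, add_comm]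

lemma before_succ_le (t : Simp p) {i j : Fin (p + 1)} (h : i < j) :
    before t i + t i ≤ before t j := by
  rw [before_add]
  refine sum_le_sum_of_subset_of_nonneg ?_ fun k _ _ => stdSimplex.zero_le t k
  intro k hk
  simp only [mem_Iic, mem_Iio] at hk ⊢
  exact lt_of_le_of_lt hk h

lemma before_add_le_one (t : Simp p) (j : Fin (p + 1)) : before t j + t j ≤ 1 := by
  rw [before_add, ← stdSimplex.sum_eq_one t]
  exact sum_le_sum_of_subset_of_nonneg (subset_univ _) fun k _ _ => stdSimplex.zero_le t k

lemma before_push (δ : Face p q) (t : Simp p) (j : Fin (p + 1)) :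
    before (push δ t) (δ j) = before t j := by
  rw [before, before]
  have : ∑ i ∈ (Iio j).image δ, push δ t i = ∑ i ∈ Iio (δ j), push δ t i := by
    refine sum_subset ?_ ?_
    · intro k hk
      obtain ⟨i, hi, rfl⟩ := mem_image.1 hk
      exact mem_Iio.2 (δ.lt_iff_lt.2 (mem_Iio.1 hi))
    · intro k hk hk'
      refine push_apply_of_notMem δ t fun i hi => hk' ?_
      subst hi
      exact mem_image.2 ⟨i, mem_Iio.2 (δ.lt_iff_lt.1 (mem_Iio.1 hk)), rfl⟩
  rw [← this, sum_image fun i _ k _ h => δ.injective h]
  exact sum_congr rfl fun i _ => push_apply δ t i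

/-- The mass of a position lying below the level `u`. -/
noncomputable def low (u : ℝ) (t : Simp p) (j : Fin (p + 1)) : ℝ :=
  min (t j) (max 0 (u - before t j))

lemma low_nonneg (u : ℝ) (t : Simp p) (j : Fin (p + 1)) : 0 ≤ low u t j :=
  le_min (stdSimplex.zero_le t j) (le_max_left _ _)

lemma low_le (u : ℝ) (t : Simp p) (j : Fin (p + 1)) : low u t j ≤ t j := min_le_left _ _

/-- The weights of the prism at height `s`: mass below `1 - s` in the lower layer. -/
noncomputable def weights (s : unitInterval) (t : Simp p) : stdSimplex ℝ (Layer p) :=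
  ⟨fun a => bif a.up then t a.pos - low (1 - s) t a.pos else low (1 - s) t a.pos, fun a => by
    obtain ⟨j, e⟩ := a
    cases e
    · exact low_nonneg _ t j
    · exact sub_nonneg.2 (low_le _ t j), by
    rw [← stdSimplex.sum_eq_one t]
    rw [← Equiv.sum_comp (⟨fun a => ⟨a.1, a.2⟩, fun a => (a.pos, a.up), fun _ => rfl,
      fun _ => rfl⟩ : Fin (p + 1) × Bool ≃ Layer p), Fintype.sum_prod_type]
    simp⟩

lemma weights_apply (s : unitInterval) (t : Simp p) (j : Fin (p + 1)) (e : Bool) :
    weights s t ⟨j, e⟩ = bif e then t j - low (1 - s) t j else low (1 - s) t j := rfl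

lemma continuous_weights (a : Layer p) :
    Continuous fun z : unitInterval × Simp p => weights z.1 z.2 a := by
  obtain ⟨j, e⟩ := a
  have h1 := (continuous_coord j).comp (continuous_snd (X := unitInterval) (Y := Simp p))
  have h2 := (continuous_before j).comp (continuous_snd (X := unitInterval) (Y := Simp p))
  have h0 : Continuous fun z : unitInterval × Simp p => low (1 - z.1) z.2 j :=
    h1.min (continuous_const.max
      ((continuous_const.sub (continuous_subtype_val.comp continuous_fst)).sub h2))
  cases e
  · exact h0
  · exact h1.sub h0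

lemma weights_push (δ : Face p q) (s : unitInterval) (t : Simp p) :
    weights s (push δ t) = stdSimplex.map (Layer.lift δ) (weights s t) := by
  refine stdSimplex.ext (funext fun a => ?_)
  obtain ⟨k, e⟩ := a
  by_cases hk : ∃ j, δ j = k
  · obtain ⟨j, rfl⟩ := hk
    rw [show (⟨δ j, e⟩ : Layer q) = Layer.lift δ ⟨j, e⟩ from rfl,
      map_apply_of_injective (f := Layer.lift δ) fun a b h =>
        Layer.ext (δ.injective (congrArg Layer.pos h :)) (congrArg Layer.up h :)]
    show weights s (push δ t) ⟨δ j, e⟩ = _
    simp only [weights_apply, low, before_push, push_apply]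
  · rw [not_exists] at hk
    rw [map_apply_of_notMem _ fun a ha => hk a.pos (congrArg Layer.pos ha), weights_apply,
      push_apply_of_notMem δ t hk]
    have : low (1 - (s : ℝ)) (push δ t) k = 0 := by
      rw [low, push_apply_of_notMem δ t hk]
      exact min_eq_left (le_max_left _ _)
    cases e <;> simp [this]

/-- The set of parameters where the switch happens at `i`. -/
def switchSet (i : Fin (p + 1)) : Set (unitInterval × Simp p) :=
  {z | before z.2 i ≤ 1 - (z.1 : ℝ) ∧ 1 - (z.1 : ℝ) ≤ before z.2 i + z.2 i}

lemma isClosed_switchSet (i : Fin (p + 1)) : IsClosed (switchSet i) := by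
  have h1 := (continuous_before i).comp (continuous_snd (X := unitInterval) (Y := Simp p))
  have h2 := (continuous_coord i).comp (continuous_snd (X := unitInterval) (Y := Simp p))
  have hu : Continuous fun z : unitInterval × Simp p => 1 - (z.1 : ℝ) :=
    continuous_const.sub (continuous_subtype_val.comp continuous_fst)
  exact (isClosed_le h1 hu).inter (isClosed_le hu (h1.add h2))

lemma exists_switch (s : unitInterval) (t : Simp p) : ∃ i, (s, t) ∈ switchSet i := by
  classical
  let S := univ.filter fun i : Fin (p + 1) => before t i ≤ 1 - (s : ℝ)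
  have hS : S.Nonempty := ⟨0, mem_filter.2 ⟨mem_univ _, by
    have : before t 0 = 0 := sum_eq_zero fun i hi => absurd (mem_Iio.1 hi) (by simp)
    rw [this]
    have := s.2.2
    linarith⟩⟩
  refine ⟨S.max' hS, (mem_filter.1 (S.max'_mem hS)).2, ?_⟩
  set i := S.max' hS with hi
  by_cases hl : i = Fin.last p
  · rw [hl, before_add]
    have : ∑ j ∈ Iic (Fin.last p), t j = 1 := by
      rw [← stdSimplex.sum_eq_one t]
      exact sum_congr (by ext j; simp [Fin.le_last]) fun _ _ => rfl
    rw [this]
    have := s.2.1
    show 1 - (s : ℝ) ≤ 1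
    linarith
  · obtain ⟨j, hj⟩ : ∃ j : Fin (p + 1), (j : ℕ) = i + 1 :=
      ⟨⟨i + 1, by have := Fin.val_lt_last hl; omega⟩, rfl⟩
    have hle : before t j = before t i + t i := by
      rw [before_add, before]
      refine sum_congr ?_ fun _ _ => rfl
      ext k
      simp only [mem_Iio, mem_Iic, Fin.lt_def, Fin.le_def]
      omega
    rw [← hle]
    by_contra hc
    have : j ∈ S := mem_filter.2 ⟨mem_univ _, (not_le.1 hc).le⟩
    have := Fin.le_def.1 (S.le_max' j this)
    rw [← hi] at this
    omega

lemma weights_eq_zero {s : unitInterval} {t : Simp p} {i : Fin (p + 1)}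
    (h : (s, t) ∈ switchSet i) (a : Layer p) (ha : a ∉ Set.range (Layer.path i)) :
    weights s t a = 0 := by
  obtain ⟨j, e⟩ := a
  obtain ⟨h1, h2⟩ := h
  have hj := j.2
  cases e
  · have hij : i < j := by
      by_contra hc
      refine ha ⟨⟨j.1, by omega⟩, ?_⟩
      unfold Layer.path
      rw [dif_pos (show j.1 ≤ i.1 from not_lt.1 hc)]
    have := before_succ_le t hij
    simp only [weights_apply, cond_false, low]
    rw [max_eq_left (by linarith : 1 - (s : ℝ) - before t j ≤ 0)]
    exact min_eq_right (stdSimplex.zero_le t j)
  · have hji : j < i := by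
      by_contra hc
      refine ha ⟨⟨j.1 + 1, by omega⟩, ?_⟩
      unfold Layer.path
      rw [dif_neg (show ¬ j.1 + 1 ≤ i.1 by have := Fin.le_def.1 (not_lt.1 hc); omega)]
      exact Layer.ext (Fin.ext (by simp)) rfl
    have := before_succ_le t hji
    simp only [weights_apply, cond_true, low]
    rw [min_eq_left (le_max_of_le_right (by linarith : t j ≤ 1 - (s : ℝ) - before t j)), sub_self]

end Weights

section Prism

variable {F G : C ⥤ D} (η : F ⟶ G) {p q : ℕ}

/-- The values of the prism on morphisms. -/
def layerMap (c : ComposableArrows C p) :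
    (a b : Layer p) → a ≤ b → ((bif a.up then G else F).obj (c.obj a.pos) ⟶
      (bif b.up then G else F).obj (c.obj b.pos))
  | ⟨_, false⟩, ⟨_, false⟩, h => F.map (c.map (homOfLE (Layer.le_pos h)))
  | ⟨_, false⟩, ⟨_, true⟩, h => F.map (c.map (homOfLE (Layer.le_pos h))) ≫ η.app _
  | ⟨_, true⟩, ⟨_, true⟩, h => G.map (c.map (homOfLE (Layer.le_pos h)))
  | ⟨i, true⟩, ⟨j, false⟩, h => absurd (show (i, true) ≤ (j, false) from h).2 (fun hb : true ≤ false => Bool.noConfusion (le_antisymm hb (Bool.false_le _)))

lemma layerMap_id (c : ComposableArrows C p) (a : Layer p) :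
    layerMap η c a a le_rfl = 𝟙 _ := by
  obtain ⟨i, e⟩ := a
  cases e <;> simp [layerMap]

lemma layerMap_comp (c : ComposableArrows C p) {a b d : Layer p} (h : a ≤ b) (h' : b ≤ d) :
    layerMap η c a d (h.trans h') = layerMap η c a b h ≫ layerMap η c b d h' := by
  obtain ⟨i, e⟩ := a
  obtain ⟨j, e'⟩ := b
  obtain ⟨k, e''⟩ := d
  have hij := (show (i, e) ≤ (j, e') from h).2
  have hjk := (show (j, e') ≤ (k, e'') from h').2
  cases e <;> cases e' <;> cases e'' <;> first
    | exact absurd (show (true : Bool) ≤ false from hij) (by decide)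
    | exact absurd (show (true : Bool) ≤ false from hjk) (by decide)
    | (simp only [layerMap, cond_false, cond_true]
       rw [← homOfLE_comp (Layer.le_pos h) (Layer.le_pos h'), c.map_comp]
       simp only [Functor.map_comp, Category.assoc, NatTrans.naturality, η.naturality_assoc])

/-- A chain and a natural transformation give a functor on two layers. -/
def prismFunctor (c : ComposableArrows C p) : Layer p ⥤ D where
  obj a := (bif a.up then G else F).obj (c.obj a.pos)
  map f := layerMap η c _ _ (leOfHom f)
  map_id a := layerMap_id η c a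
  map_comp f g := layerMap_comp η c (leOfHom f) (leOfHom g)

lemma prismFunctor_face (δ : Face p q) (c : ComposableArrows C q) :
    prismFunctor η (δ.monotone.functor ⋙ c) =
      (Layer.lift_strictMono δ).monotone.functor ⋙ prismFunctor η c := by
  refine CategoryTheory.Functor.ext (fun a => rfl) fun a b f => ?_
  obtain ⟨i, e⟩ := a
  obtain ⟨j, e'⟩ := b
  have h := (show (i, e) ≤ (j, e') from leOfHom f).2
  refine Eq.trans ?_ ((Category.id_comp _).trans (Category.comp_id _)).symm
  cases e <;> cases e' <;> first
    | exact absurd (show (true : Bool) ≤ false from h) (by decide)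
    | rfl

lemma prismFunctor_incl (c : ComposableArrows C p) (e : Bool) :
    ((Layer.incl_strictMono e).monotone.functor ⋙ prismFunctor η c : ComposableArrows D p) =
      (c ⋙ bif e then G else F : ComposableArrows D p) := by
  cases e <;> exact CategoryTheory.Functor.ext (fun a => rfl) fun a b f =>
    Eq.trans rfl ((Category.id_comp _).trans (Category.comp_id _)).symm

/-- The point of the prism over `mk c t` at height `s`. -/
noncomputable def prismVal (s : unitInterval) (c : ComposableArrows C p) (t : Simp p) : BC D :=
  mk (X := nerve D)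
    ((Layer.path_strictMono (exists_switch s t).choose).monotone.functor ⋙ prismFunctor η c :
      ComposableArrows D (p + 1))
    (restrict (Layer.path_strictMono _).injective (weights s t)
      (weights_eq_zero (exists_switch s t).choose_spec))

lemma prismVal_eq (s : unitInterval) (c : ComposableArrows C p) (t : Simp p) {m : ℕ}
    {φ : Fin (m + 1) → Layer p} (hφ : StrictMono φ) (r : Simp m)
    (h : stdSimplex.map φ r = weights s t) :
    prismVal η s c t =
      mk (X := nerve D) (hφ.monotone.functor ⋙ prismFunctor η c : ComposableArrows D m) r :=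
  mk_eq_of_map_eq (prismFunctor η c) (Layer.path_strictMono (exists_switch s t).choose) hφ
    (restrict (Layer.path_strictMono _).injective (weights s t)
      (weights_eq_zero (exists_switch s t).choose_spec)) r
    ((map_restrict _ _ _).trans h.symm)

lemma prismVal_push (s : unitInterval) (δ : Face p q) (c : ComposableArrows C q) (t : Simp p) :
    prismVal η s (δ.monotone.functor ⋙ c) t = prismVal η s c (push δ t) := by
  rw [prismVal_eq η s c (push δ t)
    ((Layer.lift_strictMono δ).comp (Layer.path_strictMono (exists_switch s t).choose))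
    (restrict (Layer.path_strictMono _).injective (weights s t)
      (weights_eq_zero (exists_switch s t).choose_spec))
    ((stdSimplex.map_comp_apply _ _ _).symm.trans
      ((congrArg (stdSimplex.map (Layer.lift δ)) (map_restrict _ _ _)).trans
        (weights_push δ s t).symm))]
  unfold prismVal
  congr 1
  rw [prismFunctor_face]
  rfl

/-- The prism. -/
noncomputable def prism (z : unitInterval × BC C) : BC D :=
  Quot.lift (fun a : Pre (nerve C) => prismVal η z.1 a.2.1 a.2.2)
    (by rintro _ _ ⟨δ, c, t⟩; exact prismVal_push η z.1 δ c t) z.2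

lemma prism_mk (s : unitInterval) (c : ComposableArrows C p) (t : Simp p) :
    prism η (s, mk (X := nerve C) c t) = prismVal η s c t := rfl

lemma continuous_prism : Continuous (prism η) := by
  refine continuous_interval_prod fun p c => ?_
  refine LocallyFinite.continuous (locallyFinite_of_finite switchSet)
    (Set.iUnion_eq_univ_iff.2 fun z => exists_switch z.1 z.2) isClosed_switchSet fun i => ?_
  rw [continuousOn_iff_continuous_domRestrict]
  have hr : Continuous fun z : switchSet i =>
      restrict (Layer.path_strictMono i).injective (weights z.1.1 z.1.2)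
        (weights_eq_zero z.2) :=
    (continuous_pi fun k => (continuous_weights (Layer.path i k)).comp
      continuous_subtype_val).subtype_mk _
  refine Continuous.congr ((continuous_mk (X := nerve D) (p + 1)).comp
    ((continuous_const (y := simplex ((Layer.path_strictMono i).monotone.functor ⋙
      prismFunctor η c))).prodMk hr)) fun z => ?_
  exact (prismVal_eq η z.1.1 c z.1.2 (Layer.path_strictMono i)
    (restrict (Layer.path_strictMono i).injective (weights z.1.1 z.1.2) (weights_eq_zero z.2))
    (map_restrict _ _ _)).symm

lemma map_incl_false (t : Simp p) : stdSimplex.map (Layer.incl false) t = weights 0 t := by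
  refine stdSimplex.ext (funext fun a => ?_)
  obtain ⟨j, e⟩ := a
  have h : low 1 t j = t j := by
    have := before_add_le_one t j
    simp only [low]
    exact min_eq_left (le_max_of_le_right (by linarith))
  cases e
  · rw [show (⟨j, false⟩ : Layer p) = Layer.incl false j from rfl,
      map_apply_of_injective (Layer.incl_strictMono false).injective]
    simp [Layer.incl, weights_apply, h]
  · rw [map_apply_of_notMem _ fun k hk => Bool.noConfusion (congrArg Layer.up hk)]
    simp [weights_apply, h]

lemma map_incl_true (t : Simp p) : stdSimplex.map (Layer.incl true) t = weights 1 t := by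
  refine stdSimplex.ext (funext fun a => ?_)
  obtain ⟨j, e⟩ := a
  have h : low 0 t j = 0 := by
    have := before_nonneg t j
    simp only [low]
    rw [max_eq_left (by linarith)]
    exact min_eq_right (stdSimplex.zero_le t j)
  cases e
  · rw [map_apply_of_notMem _ fun k hk => Bool.noConfusion (congrArg Layer.up hk)]
    simp [weights_apply, h]
  · rw [show (⟨j, true⟩ : Layer p) = Layer.incl true j from rfl,
      map_apply_of_injective (Layer.incl_strictMono true).injective]
    simp [Layer.incl, weights_apply, h]

/-- A natural transformation gives a homotopy of maps of classifying spaces. -/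
noncomputable def natHomotopy : ContinuousMap.Homotopy (bmap F) (bmap G) where
  toFun := prism η
  continuous_toFun := continuous_prism η
  map_zero_left z := by
    obtain ⟨p, c, t, rfl⟩ := exists_mk z
    exact (prismVal_eq η 0 c t (Layer.incl_strictMono false) t (map_incl_false t)).trans
      (congrArg (fun d => mk (X := nerve D) d t) (prismFunctor_incl η c false))
  map_one_left z := by
    obtain ⟨p, c, t, rfl⟩ := exists_mk z
    exact (prismVal_eq η 1 c t (Layer.incl_strictMono true) t (map_incl_true t)).trans
      (congrArg (fun d => mk (X := nerve D) d t) (prismFunctor_incl η c true))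

end Prism

lemma homotopic_of_natTrans {F G : C ⥤ D} (η : F ⟶ G) : (bmap F).Homotopic (bmap G) :=
  ⟨natHomotopy η⟩

section Point

variable (p : ℕ)

/-- The classifying space of the one-object, one-arrow category. -/
abbrev BPt : Type := BC (Discrete PUnit.{1})

/-- The only chain. -/
def ptChain : (nerve (Discrete PUnit.{1})).obj p := (Functor.const _).obj ⟨PUnit.unit⟩

lemma ptChain_unique (c : (nerve (Discrete PUnit.{1})).obj p) : c = ptChain p :=
  CategoryTheory.Functor.ext (fun _ => Subsingleton.elim _ _) fun _ _ _ => Subsingleton.elim _ _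

/-- The cone on a point of a simplex. -/
noncomputable def coneWeights (s : unitInterval) (t : Simp p) : Simp (p + 1) :=
  ⟨Fin.snoc (α := fun _ => ℝ) (fun i => (1 - (s : ℝ)) * t i) (s : ℝ), fun i => by
    refine Fin.lastCases ?_ (fun j => ?_) i
    · simpa using s.2.1
    · simpa using mul_nonneg (by have := s.2.2; linarith) (stdSimplex.zero_le t j), by
    rw [Fin.sum_univ_castSucc]
    simp only [Fin.snoc_castSucc, Fin.snoc_last, ← Finset.mul_sum, stdSimplex.sum_eq_one]
    ring⟩

lemma continuous_coneWeights : Continuous fun z : unitInterval × Simp p =>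
    coneWeights p z.1 z.2 := by
  refine (continuous_pi fun i => ?_).subtype_mk _
  refine Fin.lastCases ?_ (fun j => ?_) i
  · simp only [Fin.snoc_last]
    fun_prop
  · simpa using (continuous_const.sub (continuous_subtype_val.comp
      (continuous_fst (X := unitInterval) (Y := Simp p)))).fun_mul
      ((continuous_coord j).comp continuous_snd)

lemma coneWeights_last (s : unitInterval) (t : Simp p) :
    coneWeights p s t (Fin.last (p + 1)) = s :=
  Fin.snoc_last (α := fun _ => ℝ) (s : ℝ) (fun i => (1 - (s : ℝ)) * t i)

lemma coneWeights_castSucc (s : unitInterval) (t : Simp p) (i : Fin (p + 1)) :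
    coneWeights p s t i.castSucc = (1 - (s : ℝ)) * t i :=
  Fin.snoc_castSucc (α := fun _ => ℝ) (s : ℝ) (fun i => (1 - (s : ℝ)) * t i) i

variable {p}

/-- The value of the contraction. -/
noncomputable def coneVal (s : unitInterval) (t : Simp p) : BPt :=
  mk (ptChain (p + 1)) (coneWeights p s t)

lemma coneVal_push {q : ℕ} (δ : Face p q) (s : unitInterval) (t : Simp p) :
    coneVal s t = coneVal s (push δ t) := by
  let ε : Face (p + 1) (q + 1) := OrderEmbedding.ofStrictMono
    (Fin.snoc (α := fun _ => Fin (q + 2)) (fun i => (δ i).castSucc) (Fin.last (q + 1))) (by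
      intro a b hab
      revert hab
      refine Fin.lastCases ?_ (fun a => ?_) a
      · exact fun h => absurd h (Fin.le_last b).not_gt
      · refine Fin.lastCases ?_ (fun b => ?_) b
        · simp [Fin.castSucc_lt_last]
        · simp [δ.lt_iff_lt])
  have hl : ε (Fin.last (p + 1)) = Fin.last (q + 1) :=
    Fin.snoc_last (α := fun _ => Fin (q + 2)) (Fin.last (q + 1)) (fun i => (δ i).castSucc)
  have hc : ∀ i, ε (Fin.castSucc i) = (δ i).castSucc := fun i =>
    Fin.snoc_castSucc (α := fun _ => Fin (q + 2)) (Fin.last (q + 1)) (fun i => (δ i).castSucc) i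
  have hε : push ε (coneWeights p s t) = coneWeights q s (push δ t) := by
    refine stdSimplex.ext (funext fun k => ?_)
    refine Fin.lastCases ?_ (fun k => ?_) k
    · rw [← hl, push_apply, hl, coneWeights_last, coneWeights_last]
    · by_cases hk : ∃ i, δ i = k
      · obtain ⟨i, rfl⟩ := hk
        rw [← hc, push_apply, hc, coneWeights_castSucc, coneWeights_castSucc, push_apply]
      · rw [not_exists] at hk
        rw [push_apply_of_notMem ε _ fun i => ?_, coneWeights_castSucc,
          push_apply_of_notMem δ t hk, mul_zero]
        refine Fin.lastCases ?_ (fun i => ?_) i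
        · rw [hl]
          exact (Fin.castSucc_lt_last k).ne'
        · rw [hc]
          exact fun h => hk i (Fin.castSucc_injective _ h)
  rw [coneVal, coneVal, ← hε, ← glue, ptChain_unique (p + 1) ((nerve _).face ε _)]

/-- The contraction of the classifying space of a point. -/
noncomputable def cone (z : unitInterval × BPt) : BPt :=
  Quot.lift (fun a : Pre (nerve (Discrete PUnit.{1})) => coneVal z.1 a.2.2)
    (by rintro _ _ ⟨δ, c, t⟩; exact coneVal_push δ z.1 t) z.2

lemma cone_mk (s : unitInterval) (c : (nerve (Discrete PUnit.{1})).obj p) (t : Simp p) :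
    cone (s, mk c t) = coneVal s t := rfl

lemma continuous_cone : Continuous cone := by
  refine continuous_interval_prod fun p c => ?_
  exact (continuous_mk (X := nerve (Discrete PUnit.{1})) (p + 1)).comp
    ((continuous_const (y := ptChain (p + 1))).prodMk (continuous_coneWeights p))

instance : ContractibleSpace BPt := by
  refine contractible_iff_id_nullhomotopic _ |>.2 ⟨vertex ⟨PUnit.unit⟩, ⟨?_⟩⟩
  refine ⟨⟨cone, continuous_cone⟩, fun z => ?_, fun z => ?_⟩
  · obtain ⟨p, c, t, rfl⟩ := exists_mk z
    let δ : Face p (p + 1) := Fin.castSuccOrderEmb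
    have h : coneWeights p 0 t = push δ t := by
      refine stdSimplex.ext (funext fun k => ?_)
      refine Fin.lastCases ?_ (fun k => ?_) k
      · rw [push_apply_of_notMem δ t fun i => (Fin.castSucc_lt_last i).ne]
        simp [coneWeights_last]
      · rw [show k.castSucc = δ k from rfl, push_apply]
        simp [δ, coneWeights_castSucc]
    show coneVal 0 t = _
    rw [coneVal, h, ← glue, ptChain_unique p ((nerve _).face δ _), ← ptChain_unique p c]
    rfl
  · obtain ⟨p, c, t, rfl⟩ := exists_mk z
    let δ : Face 0 (p + 1) :=
      OrderEmbedding.ofStrictMono (fun _ => Fin.last (p + 1)) fun a b h => absurd h (by omega)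
    have h : coneWeights p 1 t = push δ (stdSimplex.vertex 0) := by
      refine stdSimplex.ext (funext fun k => ?_)
      refine Fin.lastCases ?_ (fun k => ?_) k
      · rw [show Fin.last (p + 1) = δ 0 from rfl, push_apply]
        rw [show δ 0 = Fin.last (p + 1) from rfl, coneWeights_last]
        simp
      · rw [push_apply_of_notMem δ _ fun i => (Fin.castSucc_lt_last k).ne']
        simp [coneWeights_castSucc]
    show coneVal 1 t = _
    rw [coneVal, h, ← glue, ptChain_unique 0 ((nerve _).face δ _)]
    exact congrArg (fun c => mk c _) (ptChain_unique 0 _).symm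

end Point

/-- The classifying space of a category with a terminal object is contractible. -/
lemma contractibleSpace_of_isTerminal {a : C} (h : Limits.IsTerminal a) :
    ContractibleSpace (BC C) := by
  let K : Discrete PUnit.{1} ⥤ C := (Functor.const _).obj a
  let η : 𝟭 C ⟶ Functor.star C ⋙ K :=
    { app := fun b => h.from b
      naturality := fun _ _ _ => h.hom_ext _ _ }
  obtain ⟨x, hx⟩ := (contractible_iff_id_nullhomotopic BPt).1 inferInstance
  refine (contractible_iff_id_nullhomotopic _).2 ⟨bmap K x, ?_⟩
  refine (bmap_id (C := C) ▸ homotopic_of_natTrans η).trans ?_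
  rw [bmap_comp]
  exact (ContinuousMap.Homotopic.refl (bmap K)).comp
    (hx.comp (ContinuousMap.Homotopic.refl (bmap (Functor.star C))))

/-- The classifying space of a category with an initial object is contractible. -/
lemma contractibleSpace_of_isInitial {a : C} (h : Limits.IsInitial a) :
    ContractibleSpace (BC C) := by
  let K : Discrete PUnit.{1} ⥤ C := (Functor.const _).obj a
  let η : Functor.star C ⋙ K ⟶ 𝟭 C :=
    { app := fun b => h.to b
      naturality := fun _ _ _ => h.hom_ext _ _ }
  obtain ⟨x, hx⟩ := (contractible_iff_id_nullhomotopic BPt).1 inferInstance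
  refine (contractible_iff_id_nullhomotopic _).2 ⟨bmap K x, ?_⟩
  refine (bmap_id (C := C) ▸ homotopic_of_natTrans η).symm.trans ?_
  rw [bmap_comp]
  exact (ContinuousMap.Homotopic.refl (bmap K)).comp
    (hx.comp (ContinuousMap.Homotopic.refl (bmap (Functor.star C))))

/-- A point of a simplex is joined to the vertices of the simplex. -/
lemma joined_mk {p : ℕ} (c : (nerve C).obj p) (t t' : Simp p) :
    Joined (mk c t) (mk c t') := by
  have hc := convex_stdSimplex ℝ (Fin (p + 1))
  let γ : unitInterval → Simp p := fun s =>
    ⟨(1 - (s : ℝ)) • t.1 + (s : ℝ) • t'.1,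
      hc t.2 t'.2 (by have := s.2.2; linarith) s.2.1 (by ring)⟩
  have hγ : Continuous γ := by
    refine Continuous.subtype_mk ?_ _
    fun_prop
  refine ⟨⟨⟨fun s => mk c (γ s),
    (continuous_mk (X := nerve C) p).comp ((continuous_const (y := c)).prodMk hγ)⟩, ?_, ?_⟩⟩
  · exact congrArg (mk c) (stdSimplex.ext (by simp [γ]))
  · exact congrArg (mk c) (stdSimplex.ext (by simp [γ]))

lemma mk_vertex {p : ℕ} (c : ComposableArrows C p) (i : Fin (p + 1)) :
    mk (X := nerve C) c (stdSimplex.vertex i) = vertex (c.obj i) := by
  let δ : Face 0 p := OrderEmbedding.ofStrictMono (fun _ => i) fun a b h => absurd h (by omega)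
  have h : push δ (stdSimplex.vertex 0) = stdSimplex.vertex i := stdSimplex.map_vertex _ _
  rw [← h]
  refine (glue (X := nerve C) δ c _).symm.trans ?_
  exact congrArg (fun c => mk (X := nerve C) c _) (ComposableArrows.ext₀ rfl)

/-- Every point is joined to a vertex. -/
lemma exists_joined_vertex (z : BC C) : ∃ a : C, Joined z (vertex a) := by
  obtain ⟨p, c, t, rfl⟩ := exists_mk z
  exact ⟨(c : ComposableArrows C p).obj 0, mk_vertex c 0 ▸ joined_mk c t _⟩

/-- An arrow gives a path between its ends. -/
lemma joined_vertex {a b : C} (f : a ⟶ b) : Joined (vertex a) (vertex b) := by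
  have h := joined_mk (C := C) (simplex (ComposableArrows.mk₁ f)) (stdSimplex.vertex 0)
    (stdSimplex.vertex 1)
  rwa [mk_vertex, mk_vertex] at h

/-- A category in which any two objects are linked by arrows has a path-connected classifying
space. -/
lemma pathConnectedSpace_of_zigzag [Nonempty C] (h : ∀ a b : C, Zigzag a b) :
    PathConnectedSpace (BC C) := by
  have hv : ∀ a b : C, Joined (vertex a) (vertex b) := fun a b => by
    induction h a b with
    | refl => exact Joined.refl _
    | tail _ hbc ih =>
      rcases hbc with ⟨⟨f⟩⟩ | ⟨⟨f⟩⟩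
      · exact ih.trans (joined_vertex f)
      · exact ih.trans (joined_vertex f).symm
  refine ⟨⟨vertex (Classical.arbitrary C)⟩, fun x y => ?_⟩
  obtain ⟨a, ha⟩ := exists_joined_vertex x
  obtain ⟨b, hb⟩ := exists_joined_vertex y
  exact ha.trans ((hv a b).trans hb.symm)

@[simp]
lemma bmap_vertex (F : C ⥤ D) (a : C) : bmap F (vertex a) = vertex (F.obj a) := by
  rw [vertex, bmap_mk]
  exact congrArg (fun c => mk (X := nerve D) c _) (ComposableArrows.ext₀ rfl)

end Vale.Agent.P259.Real
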