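import Mathlib.Analysis.Convex.StdSimplex
import Mathlib.Topology.ContinuousMap.Basic
import Mathlib.Data.Finset.Sort
import Mathlib.Order.Hom.Basic

/-!
Fat realisations of semi-simplicial spaces: normal forms, skeleta, and the fact that a compact
subset lies in a finite skeleton.  (P259.)
-/

namespace Vale.Agent.P259.Real

open Finset

universe u v

/-- A strictly increasing map of finite ordinals. -/
abbrev Face (p q : ℕ) := Fin (p + 1) ↪o Fin (q + 1)

/-- The topological simplex. -/
abbrev Simp (p : ℕ) := stdSimplex ℝ (Fin (p + 1))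

/-- A semi-simplicial space. -/
structure SSpace where
  /-- The spaces of simplices. -/
  obj : ℕ → Type u
  [top : ∀ p, TopologicalSpace (obj p)]
  /-- The face maps. -/
  face : ∀ {p q}, Face p q → C(obj q, obj p)
  face_id : ∀ {p} (δ : Face p p) (x : obj p), (∀ i, δ i = i) → face δ x = x
  face_comp : ∀ {p q r} (δ : Face p q) (ε : Face q r) (x : obj r),
    face (δ.trans ε) x = face δ (face ε x)

attribute [instance] SSpace.top

/-- Push a point of a simplex forward along a face. -/
noncomputable def push {p q : ℕ} (δ : Face p q) (t : Simp p) : Simp q := stdSimplex.map δ t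

/-- The support of a point of a simplex. -/
noncomputable def supp {p : ℕ} (t : Simp p) : Finset (Fin (p + 1)) :=
  univ.filter fun i => 0 < t i

/-- An interior point: all coordinates are positive. -/
def IsInterior {p : ℕ} (t : Simp p) : Prop := ∀ i, 0 < t i

lemma continuous_push {p q : ℕ} (δ : Face p q) : Continuous (push δ) :=
  stdSimplex.continuous_map _

lemma continuous_coord {p : ℕ} (i : Fin (p + 1)) : Continuous fun t : Simp p => t i :=
  (continuous_apply i).comp continuous_subtype_val

@[simp]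
lemma push_apply {p q : ℕ} (δ : Face p q) (t : Simp p) (i : Fin (p + 1)) :
    push δ t (δ i) = t i := by
  simp only [push, stdSimplex.map_coe, FunOnFinite.linearMap_apply_apply, δ.injective.eq_iff]
  rw [Finset.sum_filter, Finset.sum_ite_eq' univ i]
  simp

lemma push_apply_of_notMem {p q : ℕ} (δ : Face p q) (t : Simp p) {j : Fin (q + 1)}
    (hj : ∀ i, δ i ≠ j) : push δ t j = 0 := by
  simp [push, FunOnFinite.linearMap_apply_apply, Finset.filter_eq_empty_iff.mpr fun i _ => hj i]

lemma push_trans {p q r : ℕ} (δ : Face p q) (ε : Face q r) (t : Simp p) :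
    push (δ.trans ε) t = push ε (push δ t) := by
  simp only [push, stdSimplex.map_comp_apply]
  rfl

lemma push_injective {p q : ℕ} (δ : Face p q) : Function.Injective (push δ) := fun s t h =>
  stdSimplex.ext (funext fun i => by rw [← push_apply δ s i, h, push_apply])

lemma supp_nonempty {p : ℕ} (t : Simp p) : (supp t).Nonempty := by
  by_contra h
  rw [not_nonempty_iff_eq_empty, supp, filter_eq_empty_iff] at h
  have h0 : ∑ i, t i = 0 := sum_eq_zero fun i hi =>
    le_antisymm (not_lt.1 (h hi)) (stdSimplex.zero_le t i)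
  simp at h0

lemma supp_push {p q : ℕ} (δ : Face p q) {s : Simp p} (hs : IsInterior s) :
    supp (push δ s) = univ.image δ := by
  ext j
  simp only [supp, mem_filter, mem_univ, true_and, mem_image]
  constructor
  · intro hj
    by_contra h
    rw [not_exists] at h
    rw [push_apply_of_notMem δ s h] at hj
    exact lt_irrefl _ hj
  · rintro ⟨i, rfl⟩
    rw [push_apply]
    exact hs i

variable {X : SSpace.{u}}

/-- A representative of a point of the realisation. -/
abbrev Pre (X : SSpace.{u}) := Σ p, X.obj p × Simp p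

/-- The generating relation. -/
inductive Glue (X : SSpace.{u}) : Pre X → Pre X → Prop
  | mk {p q : ℕ} (δ : Face p q) (x : X.obj q) (t : Simp p) :
      Glue X ⟨p, X.face δ x, t⟩ ⟨q, x, push δ t⟩

/-- The fat realisation. -/
def Fat (X : SSpace.{u}) : Type u := Quot (Glue X)

instance (X : SSpace.{u}) : TopologicalSpace (Fat X) :=
  inferInstanceAs (TopologicalSpace (Quot (Glue X)))

/-- The point with given coordinates. -/
def mk {p : ℕ} (x : X.obj p) (t : Simp p) : Fat X := Quot.mk _ ⟨p, x, t⟩

lemma glue {p q : ℕ} (δ : Face p q) (x : X.obj q) (t : Simp p) :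
    mk (X.face δ x) t = mk x (push δ t) :=
  Quot.sound (Glue.mk δ x t)

lemma continuous_mk (p : ℕ) : Continuous fun z : X.obj p × Simp p => mk z.1 z.2 :=
  continuous_quot_mk.comp (continuous_sigmaMk (i := p) (σ := fun p => X.obj p × Simp p))

lemma exists_mk (z : Fat X) : ∃ p, ∃ x : X.obj p, ∃ t, mk x t = z := by
  obtain ⟨⟨p, x, t⟩, rfl⟩ := Quot.exists_rep z
  exact ⟨p, x, t, rfl⟩

/-- A set is closed when its preimage in every `X_p × Δ^p` is. -/
lemma isClosed_iff {S : Set (Fat X)} :
    IsClosed S ↔ ∀ p, IsClosed {z : X.obj p × Simp p | mk z.1 z.2 ∈ S} := by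
  refine ⟨fun h p => h.preimage (continuous_mk p), fun h => ?_⟩
  refine isQuotientMap_quot_mk.isClosed_preimage.1 (isClosed_sigma_iff.2 ?_)
  exact h

lemma isOpen_iff {S : Set (Fat X)} :
    IsOpen S ↔ ∀ p, IsOpen {z : X.obj p × Simp p | mk z.1 z.2 ∈ S} := by
  refine ⟨fun h p => h.preimage (continuous_mk p), fun h => ?_⟩
  refine isQuotientMap_quot_mk.isOpen_preimage.1 (isOpen_sigma_iff.2 ?_)
  exact h

lemma continuous_iff {Z : Type v} [TopologicalSpace Z] {g : Fat X → Z} :
    Continuous g ↔ ∀ p, Continuous fun z : X.obj p × Simp p => g (mk z.1 z.2) := by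
  refine ⟨fun h p => h.comp (continuous_mk p), fun h => ?_⟩
  refine isQuotientMap_quot_mk.continuous_iff.2 (continuous_sigma_iff.2 ?_)
  exact h

/-- `Carrier a b`: `b` is the nondegenerate representative of `a`. -/
def Carrier (a b : Pre X) : Prop :=
  ∃ δ : Face b.1 a.1, b.2.1 = X.face δ a.2.1 ∧ push δ b.2.2 = a.2.2 ∧ IsInterior b.2.2

lemma exists_carrier (a : Pre X) : ∃ b, Carrier a b := by
  obtain ⟨q, x, t⟩ := a
  obtain ⟨p, hp⟩ : ∃ p, (supp t).card = p + 1 :=
    Nat.exists_eq_succ_of_ne_zero (supp_nonempty t).card_pos.ne'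
  let δ : Face p q := (supp t).orderEmbOfFin hp
  have hmem : ∀ i, δ i ∈ supp t := fun i => orderEmbOfFin_mem _ _ i
  have hout : ∀ j, (∀ i, δ i ≠ j) → t j = 0 := fun j hj => by
    refine le_antisymm (not_lt.1 fun h => ?_) (stdSimplex.zero_le t j)
    have hm : j ∈ (Set.range δ : Set (Fin (q + 1))) := by
      rw [range_orderEmbOfFin]
      exact mem_coe.2 (mem_filter.2 ⟨mem_univ j, h⟩)
    obtain ⟨i, hi⟩ := hm
    exact hj i hi
  have hsum : ∑ i, t (δ i) = 1 := by
    rw [← stdSimplex.sum_eq_one t, ← sum_image (g := δ) fun i _ j _ h => δ.injective h]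
    refine sum_subset (subset_univ _) fun j _ hj => hout j fun i hi => hj ?_
    exact mem_image.2 ⟨i, mem_univ i, hi⟩
  let s : Simp p := ⟨fun i => t (δ i), fun i => stdSimplex.zero_le t _, hsum⟩
  refine ⟨⟨p, X.face δ x, s⟩, δ, rfl, stdSimplex.ext (funext fun j => ?_),
    fun i => (mem_filter.1 (hmem i)).2⟩
  by_cases hj : ∃ i, δ i = j
  · obtain ⟨i, rfl⟩ := hj
    exact push_apply δ s i
  · rw [not_exists] at hj
    exact (push_apply_of_notMem δ s hj).trans (hout j hj).symm

lemma carrier_unique {a b b' : Pre X} (h : Carrier a b) (h' : Carrier a b') : b = b' := by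
  obtain ⟨q, x, t⟩ := a
  obtain ⟨p, y, s⟩ := b
  obtain ⟨p', y', s'⟩ := b'
  obtain ⟨δ, hy, hs, hi⟩ := h
  obtain ⟨δ', hy', hs', hi'⟩ := h'
  simp only at δ δ' hy hs hi hy' hs' hi'
  have hS : univ.image δ = univ.image δ' := by
    rw [← supp_push δ hi, ← supp_push δ' hi', hs, hs']
  have hc := congrArg card hS
  rw [card_image_of_injective _ δ.injective, card_image_of_injective _ δ'.injective] at hc
  simp only [card_univ, Fintype.card_fin, add_left_inj] at hc
  subst hc
  obtain rfl : δ = δ' := by
    refine DFunLike.coe_injective ((δ.strictMono.range_inj δ'.strictMono).1 ?_)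
    simpa using congrArg (fun S : Finset (Fin (q + 1)) => (S : Set (Fin (q + 1)))) hS
  rw [hy, hy', push_injective δ (hs.trans hs'.symm)]

lemma carrier_glue {a b : Pre X} (h : Glue X a b) {c : Pre X} (hc : Carrier a c) :
    Carrier b c := by
  obtain ⟨ε, x, t⟩ := h
  obtain ⟨δ, hy, hs, hi⟩ := hc
  exact ⟨δ.trans ε, by rw [X.face_comp]; exact hy, by rw [push_trans, hs], hi⟩

/-- The nondegenerate representative. -/
noncomputable def normal : Fat X → Pre X :=
  Quot.lift (fun a => (exists_carrier a).choose) fun a b h =>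
    carrier_unique (carrier_glue h (exists_carrier a).choose_spec) (exists_carrier b).choose_spec

lemma normal_spec {p : ℕ} (x : X.obj p) (t : Simp p) :
    Carrier ⟨p, x, t⟩ (normal (mk x t)) :=
  (exists_carrier (⟨p, x, t⟩ : Pre X)).choose_spec

lemma mk_normal (z : Fat X) : mk (normal z).2.1 (normal z).2.2 = z := by
  obtain ⟨p, x, t, rfl⟩ := exists_mk z
  obtain ⟨δ, hy, hs, -⟩ := normal_spec x t
  simp only at δ hy hs
  rw [hy, glue, hs]

lemma interior_normal (z : Fat X) : IsInterior (normal z).2.2 := by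
  obtain ⟨p, x, t, rfl⟩ := exists_mk z
  exact (normal_spec x t).choose_spec.2.2

lemma normal_mk_interior {p : ℕ} (x : X.obj p) {t : Simp p} (ht : IsInterior t) :
    normal (mk x t) = ⟨p, x, t⟩ := by
  refine carrier_unique (normal_spec x t) ⟨OrderEmbedding.ofStrictMono id strictMono_id, ?_, ?_, ht⟩
  · exact (X.face_id _ x fun _ => rfl).symm
  · exact stdSimplex.ext (funext fun i =>
      push_apply (OrderEmbedding.ofStrictMono id strictMono_id) t i)

/-- The dimension of the open cell containing a point. -/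
noncomputable abbrev dim (z : Fat X) : ℕ := (normal z).1

lemma dim_mk {p : ℕ} (x : X.obj p) (t : Simp p) : dim (mk x t) + 1 = (supp t).card := by
  obtain ⟨δ, -, hs, hi⟩ := normal_spec x t
  simp only at δ hs
  have h := congrArg Finset.card (supp_push δ hi)
  rw [hs, card_image_of_injective _ δ.injective] at h
  simp only [card_univ, Fintype.card_fin] at h
  simp [dim, h]

/-- The union of the cells of dimension below `n`. -/
def skel (X : SSpace.{u}) (n : ℕ) : Set (Fat X) := {z | dim z < n}

lemma skel_mono {m n : ℕ} (h : m ≤ n) : skel X m ⊆ skel X n := fun _ hz => lt_of_lt_of_le hz h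

lemma mk_mem_skel_iff {p n : ℕ} (x : X.obj p) (t : Simp p) :
    mk x t ∈ skel X n ↔ (supp t).card ≤ n := by
  simp only [skel, Set.mem_ofPred_eq]
  have := dim_mk x t
  omega

lemma isClosed_card_supp (p n : ℕ) : IsClosed {t : Simp p | (supp t).card ≤ n} := by
  rw [← isOpen_compl_iff, isOpen_iff_forall_mem_open]
  intro t ht
  refine ⟨⋂ i ∈ supp t, {s | 0 < s i}, fun s hs => ?_, ?_, ?_⟩
  · have : supp t ⊆ supp s := fun i hi =>
      mem_filter.2 ⟨mem_univ i, Set.mem_iInter₂.1 hs i hi⟩
    simp only [Set.mem_compl_iff, Set.mem_ofPred_eq, not_le] at ht ⊢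
    exact lt_of_lt_of_le ht (card_le_card this)
  · exact isOpen_biInter_finset fun i _ => isOpen_lt continuous_const (continuous_coord i)
  · exact Set.mem_iInter₂.2 fun i hi => (mem_filter.1 hi).2

lemma isClosed_skel (X : SSpace.{u}) (n : ℕ) : IsClosed (skel X n) := by
  refine isClosed_iff.2 fun p => ?_
  simp only [mk_mem_skel_iff]
  exact (isClosed_card_supp p n).preimage continuous_snd

/-- A compact subset of the realisation meets only finitely many dimensions. -/
lemma exists_subset_skel {K : Set (Fat X)} (hK : IsCompact K) : ∃ n, K ⊆ skel X n := by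
  by_contra h
  simp only [not_exists, Set.not_subset] at h
  choose z hzK hz using h
  have hdim : ∀ k, k ≤ dim (z k) := fun k => not_lt.1 (hz k)
  let A : ℕ → Set (Fat X) := fun m => {w | ∃ k, m ≤ k ∧
    (⟨(normal w).1, (normal w).2.2⟩ : Σ p, Simp p) = ⟨(normal (z k)).1, (normal (z k)).2.2⟩}
  have hA : ∀ m, IsClosed (A m) := by
    refine fun m => isClosed_iff.2 fun q => ?_
    let G : ℕ → Set (Simp q) := fun k =>
      {t | ∃ δ : Face (normal (z k)).1 q, push δ (normal (z k)).2.2 = t}
    have hfin : (⋃ k ∈ ((Finset.range (q + 1)).filter fun k => m ≤ k), G k).Finite := by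
      refine (Finset.finite_toSet _).biUnion fun k _ => ?_
      have : Finite (Face (normal (z k)).1 q) := Finite.of_injective _ DFunLike.coe_injective
      exact Set.finite_range fun δ : Face (normal (z k)).1 q => push δ (normal (z k)).2.2
    convert hfin.isClosed.preimage (continuous_snd (X := X.obj q)) using 1
    ext ⟨x, t⟩
    simp only [Set.mem_ofPred_eq, Set.mem_preimage, Set.mem_iUnion, mem_filter, Finset.mem_range, A,
      G, exists_prop]
    constructor
    · rintro ⟨k, hk, he⟩
      have hle : dim (mk x t) ≤ q := by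
        have := dim_mk x t
        have := card_le_univ (supp t)
        simp only [Fintype.card_fin] at this
        omega
      have hd : dim (z k) = dim (mk x t) := (congrArg (fun z : Σ p, Simp p => z.1) he).symm
      have := hdim k
      refine ⟨k, ⟨by omega, hk⟩, ?_⟩
      obtain ⟨δ, -, hs, -⟩ := normal_spec x t
      generalize hN : normal (mk x t) = N at δ hs he
      obtain ⟨N1, N2, N3⟩ := N
      obtain ⟨h1, h2⟩ := Sigma.mk.inj_iff.1 he
      subst h1
      rw [heq_iff_eq] at h2
      subst h2
      exact ⟨δ, hs⟩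
    · rintro ⟨k, ⟨-, hk⟩, δ, hδ⟩
      refine ⟨k, hk, ?_⟩
      rw [← hδ, ← glue, normal_mk_interior _ (interior_normal (z k))]
  have hne : ∀ m, (K ∩ A m).Nonempty := fun m => ⟨z m, hzK m, m, le_rfl, rfl⟩
  obtain ⟨w, hwK, hw⟩ := hK.inter_iInter_nonempty A hA fun s => by
    obtain ⟨w, hwK, k, hk, he⟩ := hne (s.sup id)
    exact ⟨w, hwK, Set.mem_iInter₂.2 fun i hi => ⟨k, le_trans (le_sup (f := id) hi) hk, he⟩⟩
  obtain ⟨k, hk, he⟩ := Set.mem_iInter.1 hw (dim w + 1)
  have : dim w = dim (z k) := congrArg (fun z : Σ p, Simp p => z.1) he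
  have := hdim k
  omega

/-- A map of semi-simplicial spaces. -/
structure SMap (X : SSpace.{u}) (Y : SSpace.{v}) where
  /-- The components. -/
  app : ∀ p, C(X.obj p, Y.obj p)
  natural : ∀ {p q} (δ : Face p q) (x : X.obj q), app p (X.face δ x) = Y.face δ (app q x)

/-- The map induced on realisations. -/
def Fat.map {Y : SSpace.{v}} (f : SMap X Y) : C(Fat X, Fat Y) where
  toFun := Quot.lift (fun a => mk (f.app a.1 a.2.1) a.2.2) (by
    rintro _ _ ⟨δ, x, t⟩
    simp only
    rw [f.natural, glue])
  continuous_toFun := continuous_iff.2 fun p =>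
    (continuous_mk p).comp (((f.app p).continuous.comp continuous_fst).prodMk continuous_snd)

@[simp]
lemma map_mk {Y : SSpace.{v}} (f : SMap X Y) {p : ℕ} (x : X.obj p) (t : Simp p) :
    Fat.map f (mk x t) = mk (f.app p x) t := rfl

@[simp]
lemma dim_map {Y : SSpace.{v}} (f : SMap X Y) (z : Fat X) : dim (Fat.map f z) = dim z := by
  obtain ⟨p, x, t, rfl⟩ := exists_mk z
  have h1 := dim_mk x t
  have h2 := dim_mk (f.app p x) t
  rw [map_mk]
  omega

lemma preimage_skel {Y : SSpace.{v}} (f : SMap X Y) (n : ℕ) :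
    Fat.map f ⁻¹' skel Y n = skel X n := by
  ext z
  simp [skel]

end Vale.Agent.P259.Real
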