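import Vale.Agent.P259.Real.DoubleWeq
import Mathlib.Topology.Homeomorph.Lemmas
import Mathlib.CategoryTheory.Comma.StructuredArrow.Basic

/-!
# Quillen's theorems A and B for classifying spaces, with connectivity (P259)

Both come from the double construction `Tot L`: the homotopy colimit over `D` of the classifying
spaces of the categories `StructuredArrow d L`, which is weakly equivalent to `BC A` by `pA` and
maps to `BC D` by `toD`, homotopically to `bmap L ∘ pA`.
-/

noncomputable section

open CategoryTheory Opposite Set unitInterval

namespace Vale.Agent.P259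

namespace Top

variable {E B B' : Type} [TopologicalSpace E] [TopologicalSpace B] [TopologicalSpace B']

/-- The homotopy fibres before and after a homeomorphism of the base. -/
def hfibHomeo (h : B ≃ₜ B') (p : C(E, B)) (b : B) :
    HFib p b ≃ₜ HFib ((⟨h, h.continuous⟩ : C(B, B')).comp p) (h b) where
  toFun q := ⟨(q.1.1, (⟨h, h.continuous⟩ : C(B, B')).comp q.1.2),
    congrArg h q.2.1, congrArg h q.2.2⟩
  invFun q := ⟨(q.1.1, (⟨h.symm, h.symm.continuous⟩ : C(B', B)).comp q.1.2),
    (congrArg h.symm q.2.1).trans (h.symm_apply_apply _),
    (congrArg h.symm q.2.2).trans (h.symm_apply_apply _)⟩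
  left_inv q := by
    refine Subtype.ext (Prod.ext rfl (ContinuousMap.ext fun t => ?_))
    exact h.symm_apply_apply _
  right_inv q := by
    refine Subtype.ext (Prod.ext rfl (ContinuousMap.ext fun t => ?_))
    exact h.apply_symm_apply _
  continuous_toFun := ((continuous_fst.comp continuous_subtype_val).prodMk
    ((ContinuousMap.continuous_postcomp _).comp
      (continuous_snd.comp continuous_subtype_val))).subtype_mk _
  continuous_invFun := ((continuous_fst.comp continuous_subtype_val).prodMk
    ((ContinuousMap.continuous_postcomp _).comp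
      (continuous_snd.comp continuous_subtype_val))).subtype_mk _

end Top

namespace Real

open Vale.Agent.P259.Top

variable {A D : Type} [SmallCategory A] [SmallCategory D] {n : ℕ}

/-- The homotopy fibre of `proj (commaF L)` over `op d` is that of `toD L` over `d`. -/
def hfibOp (L : A ⥤ D) (d : D) :
    HFib (proj (commaF L)) (vertex (op d)) ≃ₜ HFib (toD L) (vertex d) :=
  (hfibHomeo (opHomeo D) (proj (commaF L)) (vertex (op d))).trans
    { toFun := fun q => ⟨q.1, q.2.1, q.2.2.trans (opMap_vertex d)⟩
      invFun := fun q => ⟨q.1, q.2.1, q.2.2.trans (opMap_vertex d).symm⟩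
      left_inv := fun _ => rfl
      right_inv := fun _ => rfl
      continuous_toFun := continuous_subtype_val.subtype_mk _
      continuous_invFun := continuous_subtype_val.subtype_mk _ }

/-- `BC (StructuredArrow d L)` into the homotopy fibre of `toD L` over `d`. -/
def toHFib (L : A ⥤ D) (d : D) :
    C(BC (StructuredArrow d L), HFib (toD L) (vertex d)) :=
  (⟨hfibOp L d, (hfibOp L d).continuous⟩ : C(_, _)).comp (hocFibre (commaF L) (op d))

theorem toHFib_good (L : A ⥤ D) (d : D)
    (h : ∀ {d d' : D} (f : d ⟶ d'), Good n
      (bmap (StructuredArrow.map f : StructuredArrow d' L ⥤ StructuredArrow d L))) :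
    Good n (toHFib L d) :=
  (WeakEq.of_homotopyEquiv (hfibOp L d).toHomotopyEquiv n).comp
    (hoc_fibre_good (commaF L) n (fun f => h f.unop) (op d))
    (ContinuousMap.continuous _) (hfibOp L d).continuous

/-- Theorem A: a functor whose comma categories under objects are connected up to degree `n`
is `n`-good. -/
theorem theoremA (L : A ⥤ D) (h : ∀ d, Conn n (BC (StructuredArrow d L))) :
    Good n (bmap L) := by
  have hF : ∀ d, Conn n (HFib (toD L) (vertex d)) := fun d =>
    (h d).of_good (toHFib_good L d fun {d d'} f => Good.of_conn _ (h d') (h d))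
  have hp : Good n (toD L) := Good.of_hfib _ fun b => by
    obtain ⟨d, hd⟩ := exists_joined_vertex b
    exact ⟨_, hd, hF d⟩
  have hc : Good n ((bmap L).comp (pA L)) := hp.of_homotopic ⟨(J L).symm⟩
  exact Good.of_comp_right (g := bmap L) (f := pA L) hc (pA_weakEq L n)
    (ContinuousMap.continuous _) (ContinuousMap.continuous _)

/-- Theorem A for the comma categories over objects. -/
theorem theoremA' (L : A ⥤ D) (h : ∀ d, Conn n (BC (CostructuredArrow L d))) :
    Good n (bmap L) := by
  have hop : ∀ d : Dᵒᵖ, Conn n (BC (StructuredArrow d L.op)) := fun d => by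
    have h1 : Conn n (BC (CostructuredArrow L d.unop)ᵒᵖ) :=
      Conn.of_good' (h d.unop) (f := ⟨_, (opHomeo (CostructuredArrow L d.unop)).continuous⟩)
        (WeakEq.of_homotopyEquiv (opHomeo (CostructuredArrow L d.unop)).toHomotopyEquiv n)
    let e := costructuredArrowOpEquivalence L d.unop
    exact h1.of_good (f := bmap e.functor) (WeakEq.of_homotopyEquiv
      ⟨bmap e.functor, bmap e.inverse,
        by rw [← bmap_comp, ← bmap_id]; exact homotopic_of_natTrans e.unitIso.inv,
        by rw [← bmap_comp, ← bmap_id]; exact homotopic_of_natTrans e.counitIso.hom⟩ n)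
  have h2 : Good n ((opMap D).comp (bmap L.op)) :=
    (WeakEq.of_homotopyEquiv (opHomeo D).toHomotopyEquiv n).comp (theoremA L.op hop)
      (ContinuousMap.continuous _) (opHomeo D).continuous
  rw [opMap_natural L] at h2
  exact Good.of_comp_right (g := bmap L) (f := opMap A) h2
    (WeakEq.of_homotopyEquiv (opHomeo A).toHomotopyEquiv n)
    (ContinuousMap.continuous _) (ContinuousMap.continuous _)

/-- The family of arrows out of an initial object. -/
def fromInitial {a₀ : A} (ha : Limits.IsInitial a₀) : (Functor.const A).obj a₀ ⟶ 𝟭 A :=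
  ⟨fun a => ha.to a, fun _ _ _ => ha.hom_ext _ _⟩

/-- The null homotopy of `toD U`: the cone followed by the homotopy of the double
construction. -/
def nullPath (U : A ⥤ D) {a₀ : A} (ha : Limits.IsInitial a₀) (e : Tot U) :
    Path (vertex (U.obj a₀)) (toD U e) :=
  (((seg (fromInitial ha) (pA U e)).map (bmap U).continuous).cast
    (bmap_vertex U a₀).symm (by rw [bmap_id]; rfl)).trans ((J U).evalAt e)

/-- Theorem B with connectivity: if all transition functors between the comma categories of `U`
are `n`-good and `A` has an initial object, the comma category under `d` maps `n`-well to the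
paths from the image of the initial object to `d`. -/
theorem theoremB (U : A ⥤ D) {a₀ : A} (ha : Limits.IsInitial a₀)
    (h : ∀ {d d' : D} (f : d ⟶ d'), Good n
      (bmap (StructuredArrow.map f : StructuredArrow d' U ⥤ StructuredArrow d U))) (d : D) :
    Good n (span (StructuredArrow.proj d U ⋙ U) (U.obj a₀) d
      ⟨fun o => U.map (ha.to o.right), fun o o' f => by
        show 𝟙 _ ≫ U.map _ = U.map _ ≫ U.map f.right
        rw [Category.id_comp, ← U.map_comp]
        exact congrArg U.map (ha.hom_ext _ _)⟩
      ⟨fun o => o.hom, fun o o' f => by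
        show 𝟙 _ ≫ o'.hom = o.hom ≫ U.map f.right
        rw [Category.id_comp, StructuredArrow.w f]⟩) := by
  set V := StructuredArrow.proj d U ⋙ U with hV
  set α : (Functor.const (StructuredArrow d U)).obj (U.obj a₀) ⟶ V :=
    ⟨fun o => U.map (ha.to o.right), fun o o' f => by
      show 𝟙 _ ≫ U.map _ = U.map _ ≫ U.map f.right
      rw [Category.id_comp, ← U.map_comp]
      exact congrArg U.map (ha.hom_ext _ _)⟩ with hα
  have hA : ∀ m, Conn m (Tot U) := fun m => by
    have := contractibleSpace_of_isInitial ha
    exact Conn.of_good' Conn.of_contractible (pA_weakEq U m)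
  have hN : Continuous fun q : Tot U × I => nullPath U ha q.1 q.2 := by
    refine Path.trans_continuous_family
      (fun e : Tot U => ((seg (fromInitial ha) (pA U e)).map (bmap U).continuous).cast
        (bmap_vertex U a₀).symm (by rw [bmap_id]; rfl)) ?_ (fun e : Tot U => (J U).evalAt e) ?_
    · exact (bmap U).continuous.comp ((continuous_segVal (fromInitial ha)).comp
        (continuous_snd.prodMk ((pA U).continuous.comp continuous_fst)))
    · exact (J U).continuous.comp (continuous_snd.prodMk continuous_fst)
  obtain ⟨θ, hθ, hθe⟩ := exists_hfib_paths (toD U) hA _ (nullPath U ha) hN (vertex d)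
  have h1 : Good n (θ ∘ toHFib U d) :=
    (hθ n).comp (toHFib_good U d h) (ContinuousMap.continuous _) θ.continuous
  let S := span V (U.obj a₀) d α (outArrow U d)
  let T : C(BC (StructuredArrow d U), Path (vertex (U.obj a₀)) (vertex d)) := θ.comp (toHFib U d)
  have key : ∀ o (t : I), T o t = S o (projIcc 0 1 zero_le_one (2 * (t : ℝ))) := by
    intro o t
    have hpath : ∀ t, (toHFib U d o).1.2 t = vertex d := fun t =>
      (congrArg (opMap D) (hocFibre_path (commaF U) (op d) o t)).trans (opMap_vertex d)
    have hbeg : toD U (toHFib U d o).1.1 = vertex d :=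
      (toHFib U d o).2.1.symm.trans (hpath 0)
    have hT : T o = _ := hθe (toHFib U d o) ((Path.refl (vertex d)).cast hbeg rfl)
      fun t => (hpath t).symm
    rw [hT]
    have hN1 : ∀ t, nullPath U ha (toHFib U d o).1.1 t = S o t := by
      intro t
      show ((_ : Path _ _).trans _) t = ((_ : Path _ _).trans _) t
      rw [Path.trans_apply, Path.trans_apply]
      by_cases ht : (t : ℝ) ≤ 1 / 2
      · rw [dif_pos ht, dif_pos ht]
        show bmap U (segVal (fromInitial ha) (_, pA U (inFibre U d o))) = segVal α (_, o)
        rw [pA_inFibre]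
        let α₁ : (Functor.const (StructuredArrow d U)).obj a₀ ⟶ StructuredArrow.proj d U ⋙ 𝟭 A :=
          ⟨fun a => ha.to a.right, fun _ _ _ => ha.hom_ext _ _⟩
        rw [← segVal_precomp (StructuredArrow.proj d U) (fromInitial ha) α₁ (fun _ => rfl),
          ← segVal_postcomp U α₁ α (fun _ => rfl)]
      · rw [dif_neg ht, dif_neg ht]
        exact J_inFibre U d o _
    rw [Path.trans_apply]
    by_cases ht : (t : ℝ) ≤ 1 / 2
    · rw [dif_pos ht, hN1]
      congr 1
      exact (projIcc_of_mem _ _).symm
    · rw [dif_neg ht, projIcc_of_right_le _ (by linarith [not_le.1 ht])]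
      exact (S o).target.symm
  refine Good.of_homotopic (f₀ := T) (f₁ := S) h1 ⟨?_⟩
  let φ : I × I → I := fun q => projIcc 0 1 zero_le_one
    ((1 - (q.1 : ℝ)) * (projIcc (0 : ℝ) 1 zero_le_one (2 * (q.2 : ℝ)) : ℝ) + (q.1 : ℝ) * (q.2 : ℝ))
  have hφ : Continuous φ := continuous_projIcc.comp
    (((continuous_const.sub (continuous_subtype_val.comp continuous_fst)).mul
      (continuous_subtype_val.comp (continuous_projIcc.comp
        (continuous_const.mul (continuous_subtype_val.comp continuous_snd))))).add
      ((continuous_subtype_val.comp continuous_fst).mul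
      (continuous_subtype_val.comp continuous_snd)))
  let H : I × BC (StructuredArrow d U) → Path (vertex (U.obj a₀)) (vertex d) := fun q =>
    { toFun := fun t => S q.2 (φ (q.1, t))
      continuous_toFun := (S q.2).continuous.comp (hφ.comp (continuous_const.prodMk continuous_id))
      source' := by
        have h0 : φ (q.1, 0) = 0 := by simp [φ]
        rw [h0]; exact (S q.2).source
      target' := by
        have h0 : φ (q.1, 1) = 1 := by
          have h2 : projIcc (0 : ℝ) 1 zero_le_one 2 = 1 := projIcc_of_right_le _ (by norm_num)
          simp [φ, h2]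
        rw [h0]; exact (S q.2).target }
  refine ⟨⟨H, ?_⟩, fun o => ?_, fun o => ?_⟩
  · refine Path.continuous_uncurry_iff.1 ?_
    exact (Path.continuous_uncurry_iff.2 S.continuous).comp
      ((continuous_snd.comp continuous_fst).prodMk
        (hφ.comp ((continuous_fst.comp continuous_fst).prodMk continuous_snd)))
  · refine Path.ext (funext fun t => ?_)
    show S o (φ (0, t)) = T o t
    rw [key o t]
    simp [φ]
  · refine Path.ext (funext fun t => ?_)
    show S o (φ (1, t)) = S o t
    simp [φ]

end Real

end Vale.Agent.P259
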