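import Vale.Agent.P259.Real.Join

/-!
The path through the image of a point, along two families of arrows out of fixed objects. (P259.)
-/

namespace Vale.Agent.P259.Real

open CategoryTheory unitInterval

universe v u v' u' w z'

variable {A : Type u} [Category.{v} A] {D : Type u'} [Category.{v'} D]

/-- A cocone from one object, as join data. -/
def coneData {V : A ⥤ D} {d : D} (α : (Functor.const A).obj d ⟶ V) {q : ℕ}
    (x : ComposableArrows A q) :
    JoinData (ComposableArrows.mk₀ d) (x ⋙ V : ComposableArrows D q) where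
  app _ j := α.app (x.obj j)
  natl {i i'} h j := by
    obtain rfl : i = i' := Subsingleton.elim (α := Fin 1) i i'
    show (ComposableArrows.mk₀ d).map (𝟙 i) ≫ _ = _
    rw [CategoryTheory.Functor.map_id]
    exact Category.id_comp _
  natr i {j j'} h :=
    ((α.naturality (x.map (homOfLE h))).symm.trans (Category.id_comp _))

lemma coneData_face {V : A ⥤ D} {d : D} (α : (Functor.const A).obj d ⟶ V) {q' q : ℕ}
    (ε : Face q' q) (x : ComposableArrows A q) (s : I) (t : Simp q') :
    joinVal (coneData α (ε.monotone.functor ⋙ x)) s (stdSimplex.vertex 0) t =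
      joinVal (coneData α x) s (stdSimplex.vertex 0) (push ε t) := by
  let δ : Face 0 0 := OrderEmbedding.ofStrictMono id strictMono_id
  have h : push δ (stdSimplex.vertex 0) = stdSimplex.vertex 0 := stdSimplex.map_vertex _ _
  conv_rhs => rw [← h, ← joinVal_face]
  rfl

/-- The straight segment from the vertex to the image of a point. -/
noncomputable def segVal {V : A ⥤ D} {d : D} (α : (Functor.const A).obj d ⟶ V)
    (w : I × BC A) : BC D :=
  Quot.lift (fun a : Pre (nerve A) =>
      joinVal (coneData α (a.2.1 : ComposableArrows A a.1)) w.1 (stdSimplex.vertex 0) a.2.2)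
    (by rintro _ _ ⟨δ, x, t⟩; exact coneData_face α δ x w.1 t) w.2

lemma segVal_mk {V : A ⥤ D} {d : D} (α : (Functor.const A).obj d ⟶ V) (s : I) {q : ℕ}
    (x : ComposableArrows A q) (t : Simp q) :
    segVal α (s, mk (X := nerve A) x t) =
      joinVal (coneData α x) s (stdSimplex.vertex 0) t := rfl

lemma continuous_segVal {V : A ⥤ D} {d : D} (α : (Functor.const A).obj d ⟶ V) :
    Continuous (segVal α) :=
  continuous_interval_prod fun _ x =>
    (continuous_joinVal (coneData α (x : ComposableArrows A _))).comp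
      (continuous_fst.prodMk (continuous_const.prodMk continuous_snd))

lemma segVal_zero {V : A ⥤ D} {d : D} (α : (Functor.const A).obj d ⟶ V) (z : BC A) :
    segVal α (0, z) = vertex d := by
  obtain ⟨q, x, t, rfl⟩ := exists_mk z
  exact joinVal_zero _ _ _

lemma segVal_one {V : A ⥤ D} {d : D} (α : (Functor.const A).obj d ⟶ V) (z : BC A) :
    segVal α (1, z) = bmap V z := by
  obtain ⟨q, x, t, rfl⟩ := exists_mk z
  exact joinVal_one _ _ _

/-- The segment from the vertex of `d` to the image of a point, as a path. -/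
noncomputable def seg {V : A ⥤ D} {d : D} (α : (Functor.const A).obj d ⟶ V) (z : BC A) :
    Path (vertex d) (bmap V z) where
  toFun s := segVal α (s, z)
  continuous_toFun := (continuous_segVal α).comp (continuous_id.prodMk continuous_const)
  source' := segVal_zero α z
  target' := segVal_one α z

@[simp]
lemma seg_apply {V : A ⥤ D} {d : D} (α : (Functor.const A).obj d ⟶ V) (z : BC A) (s : I) :
    seg α z s = segVal α (s, z) := rfl

lemma continuous_seg {V : A ⥤ D} {d : D} (α : (Functor.const A).obj d ⟶ V) :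
    Continuous fun w : BC A × I => seg α w.1 w.2 :=
  (continuous_segVal α).comp (continuous_snd.prodMk continuous_fst)

/-- The path from `d₀` to `d₁` through the image of a point: the segment from `d₀` to the image,
then back along the segment from `d₁`. -/
noncomputable def span (V : A ⥤ D) (d₀ d₁ : D) (α : (Functor.const A).obj d₀ ⟶ V)
    (β : (Functor.const A).obj d₁ ⟶ V) : C(BC A, Path (vertex d₀) (vertex d₁)) :=
  ⟨fun z => (seg α z).trans (seg β z).symm, Path.continuous_uncurry_iff.1
    (Path.trans_continuous_family (fun z => seg α z) (continuous_seg α)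
      (fun z => (seg β z).symm)
      (Path.symm_continuous_family (fun z => seg β z) (continuous_seg β)))⟩

lemma span_apply (V : A ⥤ D) (d₀ d₁ : D) (α : (Functor.const A).obj d₀ ⟶ V)
    (β : (Functor.const A).obj d₁ ⟶ V) (z : BC A) :
    span V d₀ d₁ α β z = (seg α z).trans (seg β z).symm := rfl

lemma segVal_precomp {A' : Type w} [Category.{z'} A'] (L : A' ⥤ A) {V : A ⥤ D} {d : D}
    (α : (Functor.const A).obj d ⟶ V) (α' : (Functor.const A').obj d ⟶ L ⋙ V)
    (h : ∀ a, α'.app a = α.app (L.obj a)) (s : I) (z : BC A') :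
    segVal α' (s, z) = segVal α (s, bmap L z) := by
  obtain ⟨q, x, t, rfl⟩ := exists_mk z
  have e : α' = ⟨fun a => α.app (L.obj a), fun _ _ f => α.naturality (L.map f)⟩ :=
    NatTrans.ext (funext h)
  subst e
  rfl

/-- Strict naturality in the source. -/
theorem span_precomp {A' : Type w} [Category.{z'} A'] (L : A' ⥤ A) (V : A ⥤ D) (d₀ d₁ : D)
    (α : (Functor.const A).obj d₀ ⟶ V) (β : (Functor.const A).obj d₁ ⟶ V) (z : BC A') :
    span (L ⋙ V) d₀ d₁ ⟨fun a => α.app (L.obj a), fun _ _ f => α.naturality (L.map f)⟩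
      ⟨fun a => β.app (L.obj a), fun _ _ f => β.naturality (L.map f)⟩ z =
      span V d₀ d₁ α β (bmap L z) := by
  refine Path.ext (funext fun s => ?_)
  simp only [span_apply, Path.trans_apply, Path.symm_apply, seg_apply]
  split_ifs
  · exact segVal_precomp L α _ (fun a => rfl) _ z
  · exact segVal_precomp L β _ (fun a => rfl) _ z

lemma segVal_postcomp {D' : Type w} [Category.{z'} D'] (M : D ⥤ D') {V : A ⥤ D} {d : D}
    (α : (Functor.const A).obj d ⟶ V) (α' : (Functor.const A).obj (M.obj d) ⟶ V ⋙ M)
    (h : ∀ a, α'.app a = M.map (α.app a)) (s : I) (z : BC A) :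
    segVal α' (s, z) = bmap M (segVal α (s, z)) := by
  obtain ⟨q, x, t, rfl⟩ := exists_mk z
  show joinVal (coneData α' x) s (stdSimplex.vertex 0) t =
    bmap M (joinVal (coneData α x) s (stdSimplex.vertex 0) t)
  rw [← joinVal_map]
  have key : ∀ {c c' : ComposableArrows D' 0} (hc : c = c') (ψ : JoinData c (x ⋙ V ⋙ M))
      (ψ' : JoinData c' (x ⋙ V ⋙ M)), (∀ i j, HEq (ψ.app i j) (ψ'.app i j)) →
      joinVal ψ s (stdSimplex.vertex 0) t = joinVal ψ' s (stdSimplex.vertex 0) t := by
    intro c c' hc ψ ψ' hψ
    subst hc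
    obtain ⟨a, ha, hb⟩ := ψ
    obtain ⟨a', ha', hb'⟩ := ψ'
    obtain rfl : a = a' := funext fun i => funext fun j => eq_of_heq (hψ i j)
    rfl
  exact key (c := (ComposableArrows.mk₀ (M.obj d) : ComposableArrows D' 0)) (c' := (ComposableArrows.mk₀ d ⋙ M : ComposableArrows D' 0)) (ComposableArrows.ext₀ rfl) (coneData α' x) ((coneData α x).map M)
    fun i j => heq_of_eq (h (x.obj j))

/-- Strict naturality in the target. -/
theorem span_postcomp {D' : Type w} [Category.{z'} D'] (M : D ⥤ D') (V : A ⥤ D) (d₀ d₁ : D)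
    (α : (Functor.const A).obj d₀ ⟶ V) (β : (Functor.const A).obj d₁ ⟶ V) (z : BC A)
    (α' : (Functor.const A).obj (M.obj d₀) ⟶ V ⋙ M) (hα : ∀ a, α'.app a = M.map (α.app a))
    (β' : (Functor.const A).obj (M.obj d₁) ⟶ V ⋙ M) (hβ : ∀ a, β'.app a = M.map (β.app a))
    (t : I) : span (V ⋙ M) (M.obj d₀) (M.obj d₁) α' β' z t = bmap M (span V d₀ d₁ α β z t) := by
  simp only [span_apply, Path.trans_apply, Path.symm_apply, seg_apply]
  split_ifs
  · exact segVal_postcomp M α α' hα _ z
  · exact segVal_postcomp M β β' hβ _ z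

end Vale.Agent.P259.Real
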