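import Vale.Agent.P259.Real.HocDef
import Mathlib.CategoryTheory.Comma.StructuredArrow.Basic
import Mathlib.CategoryTheory.Comma.Over.Basic

/-!
Double chains for a functor `L : A ⥤ D`: a chain in `Dᵒᵖ`, a chain in `A`, and arrows from the
first to the image of the second; their rows and columns, and the interchange of the two double
realisations. (P259.)
-/

namespace Vale.Agent.P259.Real

open CategoryTheory Opposite

variable {A D : Type} [SmallCategory A] [SmallCategory D]

lemma structuredArrow_map_id (L : A ⥤ D) (d : D) :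
    (StructuredArrow.map (𝟙 d) : StructuredArrow d L ⥤ StructuredArrow d L) = 𝟭 _ :=
  CategoryTheory.Functor.ext (fun o => StructuredArrow.map_id)
    fun o o' f => StructuredArrow.hom_ext _ _ (by simp)

lemma structuredArrow_map_comp (L : A ⥤ D) {d d' d'' : D} (f : d ⟶ d') (g : d' ⟶ d'') :
    (StructuredArrow.map (f ≫ g) : StructuredArrow d'' L ⥤ StructuredArrow d L) =
      StructuredArrow.map g ⋙ StructuredArrow.map f :=
  CategoryTheory.Functor.ext (fun o => StructuredArrow.map_comp)
    fun o o' k => StructuredArrow.hom_ext _ _ (by simp)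

/-- The classifying spaces of the comma categories under objects. -/
noncomputable def commaF (L : A ⥤ D) : Dᵒᵖ ⥤ TopCat.{0} where
  obj d := TopCat.of (BC (StructuredArrow d.unop L))
  map f := TopCat.ofHom (bmap (StructuredArrow.map f.unop))
  map_id d := by
    rw [unop_id, structuredArrow_map_id, bmap_id]
    rfl
  map_comp f g := by
    rw [unop_comp, structuredArrow_map_comp, bmap_comp]
    rfl

/-- The classifying spaces of the opposites of the categories over the images of objects. -/
noncomputable def sliceF (L : A ⥤ D) : A ⥤ TopCat.{0} where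
  obj a := TopCat.of (BC (Over (L.obj a))ᵒᵖ)
  map f := TopCat.ofHom (bmap (Over.map (L.map f)).op)
  map_id a := by
    rw [L.map_id, Over.mapId_eq]
    exact congrArg TopCat.ofHom bmap_id
  map_comp f g := by
    rw [L.map_comp, Over.mapComp_eq]
    exact congrArg TopCat.ofHom (bmap_comp (Over.map (L.map f)).op (Over.map (L.map g)).op)

/-- A double chain. -/
structure BiData (L : A ⥤ D) (p q : ℕ) : Type where
  /-- The chain in `Dᵒᵖ`. -/
  c : ComposableArrows Dᵒᵖ p
  /-- The chain in `A`. -/
  a : ComposableArrows A q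
  /-- The arrows. -/
  app : ∀ i j, (c.obj i).unop ⟶ L.obj (a.obj j)
  /-- Compatibility with the first chain. -/
  natc : ∀ {i i' : Fin (p + 1)} (h : i ≤ i') (j), (c.map (homOfLE h)).unop ≫ app i j = app i' j
  /-- Compatibility with the second chain. -/
  nata : ∀ (i) {j j' : Fin (q + 1)} (h : j ≤ j'),
    app i j ≫ L.map (a.map (homOfLE h)) = app i j'

lemma unop_map_trans {p : ℕ} (c : ComposableArrows Dᵒᵖ p) {i j k : Fin (p + 1)} (h : i ≤ j)
    (h' : j ≤ k) : (c.map (homOfLE h')).unop ≫ (c.map (homOfLE h)).unop =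
      (c.map (homOfLE (h.trans h'))).unop :=
  congrArg Quiver.Hom.unop (c.map_comp (homOfLE h) (homOfLE h')).symm

lemma map_trans_map (L : A ⥤ D) {q : ℕ} (a : ComposableArrows A q) {i j k : Fin (q + 1)}
    (h : i ≤ j) (h' : j ≤ k) :
    L.map (a.map (homOfLE h)) ≫ L.map (a.map (homOfLE h')) =
      L.map (a.map (homOfLE (h.trans h'))) :=
  (L.map_comp _ _).symm.trans (congrArg L.map (a.map_comp (homOfLE h) (homOfLE h')).symm)

namespace BiData

variable {L : A ⥤ D} {p q p' q' : ℕ}

/-- Double chains with the same chains are equal when their arrows are. -/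
lemma ext_app {c : ComposableArrows Dᵒᵖ p} {a : ComposableArrows A q}
    {app app' : ∀ i j, (c.obj i).unop ⟶ L.obj (a.obj j)} {h₁ h₂ h₃ h₄}
    (h : ∀ i j, app i j = app' i j) :
    (⟨c, a, app, h₁, h₂⟩ : BiData L p q) = ⟨c, a, app', h₃, h₄⟩ := by
  obtain rfl : app = app' := funext fun i => funext fun j => h i j
  rfl

/-- Restriction of the first chain. -/
def faceC (Φ : BiData L p q) (δ : Face p' p) : BiData L p' q where
  c := δ.monotone.functor ⋙ Φ.c
  a := Φ.a
  app i j := Φ.app (δ i) j
  natc h j := Φ.natc (δ.monotone h) j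
  nata i _ _ h := Φ.nata (δ i) h

/-- Restriction of the second chain. -/
def faceA (Φ : BiData L p q) (ε : Face q' q) : BiData L p q' where
  c := Φ.c
  a := ε.monotone.functor ⋙ Φ.a
  app i j := Φ.app i (ε j)
  natc h j := Φ.natc h (ε j)
  nata i _ _ h := Φ.nata i (ε.monotone h)

/-- The row at the start of the first chain. -/
def row (Φ : BiData L p q) : ComposableArrows (StructuredArrow (Φ.c.obj 0).unop L) q where
  obj j := StructuredArrow.mk (Φ.app 0 j)
  map {j j'} h := StructuredArrow.homMk (Φ.a.map h) (Φ.nata 0 (leOfHom h))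
  map_id j := StructuredArrow.hom_ext _ _ (Φ.a.map_id j)
  map_comp h h' := StructuredArrow.hom_ext _ _ (Φ.a.map_comp h h')

/-- The column at the start of the second chain. -/
def col (Φ : BiData L p q) : ComposableArrows (Over (L.obj (Φ.a.obj 0)))ᵒᵖ p where
  obj i := op (Over.mk (Φ.app i 0))
  map {i i'} h := (Over.homMk (Φ.c.map h).unop (Φ.natc (leOfHom h) 0) :
    Over.mk (Φ.app i' 0) ⟶ Over.mk (Φ.app i 0)).op
  map_id i := Quiver.Hom.unop_inj (Over.OverMorphism.ext (congrArg Quiver.Hom.unop (Φ.c.map_id i)))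
  map_comp h h' := Quiver.Hom.unop_inj
    (Over.OverMorphism.ext (congrArg Quiver.Hom.unop (Φ.c.map_comp h h')))

/-- The double chain of a row. -/
def ofRow (c : ComposableArrows Dᵒᵖ p)
    (o : ComposableArrows (StructuredArrow (c.obj 0).unop L) q) : BiData L p q where
  c := c
  a := o ⋙ StructuredArrow.proj _ L
  app i j := (c.map (homOfLE (Fin.zero_le i))).unop ≫ (o.obj j).hom
  natc {i _} h j :=
    (Category.assoc _ _ _).symm.trans
      (congrArg (· ≫ (o.obj j).hom) (unop_map_trans c (Fin.zero_le i) h))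
  nata i {j _} h :=
    (Category.assoc _ _ _).trans
      (congrArg ((c.map (homOfLE (Fin.zero_le i))).unop ≫ ·)
        (StructuredArrow.w (o.map (homOfLE h))))

/-- The double chain of a column. -/
def ofCol (a : ComposableArrows A q)
    (o : ComposableArrows (Over (L.obj (a.obj 0)))ᵒᵖ p) : BiData L p q where
  c := o ⋙ (Over.forget _).op
  a := a
  app i j := (o.obj i).unop.hom ≫ L.map (a.map (homOfLE (Fin.zero_le j)))
  natc {i _} h j :=
    (Category.assoc _ _ _).symm.trans
      (congrArg (· ≫ L.map (a.map (homOfLE (Fin.zero_le j)))) (Over.w (o.map (homOfLE h)).unop))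
  nata i {j _} h :=
    (Category.assoc _ _ _).trans
      (congrArg ((o.obj i).unop.hom ≫ ·) (map_trans_map L a (Fin.zero_le j) h))

lemma ofRow_row (Φ : BiData L p q) : ofRow Φ.c Φ.row = Φ := by
  obtain ⟨c, a, app, hc, ha⟩ := Φ
  exact ext_app fun i j => hc (Fin.zero_le i) j

lemma ofCol_col (Φ : BiData L p q) : ofCol Φ.a Φ.col = Φ := by
  obtain ⟨c, a, app, hc, ha⟩ := Φ
  exact ext_app fun i j => ha i (Fin.zero_le j)

lemma map_zero_le (c : ComposableArrows Dᵒᵖ p) :
    (c.map (homOfLE (Fin.zero_le (0 : Fin (p + 1))))).unop = 𝟙 _ :=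
  congrArg Quiver.Hom.unop (c.map_id 0)

lemma row_ofRow (c : ComposableArrows Dᵒᵖ p)
    (o : ComposableArrows (StructuredArrow (c.obj 0).unop L) q) : (ofRow c o).row = o := by
  have e : ∀ j, (ofRow c o).row.obj j = o.obj j := fun j => by
    refine Eq.trans (congrArg (fun g => StructuredArrow.mk g) ?_) (StructuredArrow.eq_mk _).symm
    show (c.map (homOfLE (Fin.zero_le 0))).unop ≫ _ = _
    rw [map_zero_le]
    exact Category.id_comp _
  refine CategoryTheory.Functor.ext e fun j j' h => StructuredArrow.hom_ext _ _ ?_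
  simp only [StructuredArrow.comp_right, StructuredArrow.eqToHom_right]
  exact Eq.trans rfl ((Category.id_comp _).trans (Category.comp_id _)).symm

lemma col_ofCol (a : ComposableArrows A q)
    (o : ComposableArrows (Over (L.obj (a.obj 0)))ᵒᵖ p) : (ofCol a o).col = o := by
  have e : ∀ i, (ofCol a o).col.obj i = o.obj i := fun i => by
    refine congrArg op ?_
    refine Eq.trans (congrArg (fun g => Over.mk g) ?_) (CostructuredArrow.eq_mk _).symm
    show _ ≫ L.map (a.map (homOfLE (Fin.zero_le 0))) = _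
    rw [show homOfLE (Fin.zero_le (0 : Fin (q + 1))) = 𝟙 _ from rfl, a.map_id, L.map_id]
    exact Category.comp_id _
  refine CategoryTheory.Functor.ext e fun i i' h => ?_
  refine Quiver.Hom.unop_inj (Over.OverMorphism.ext ?_)
  simp only [unop_comp, eqToHom_unop, Over.comp_left, Over.eqToHom_left]
  exact Eq.trans rfl ((congrArg (· ≫ _) (Category.id_comp _)).trans (Category.comp_id _)).symm

lemma row_faceC (Φ : BiData L p q) (δ : Face p' p) :
    (Φ.faceC δ).row = Φ.row ⋙
      StructuredArrow.map (Φ.c.map (homOfLE (Fin.zero_le (δ 0)))).unop := by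
  have e : ∀ j, (Φ.faceC δ).row.obj j =
      (Φ.row ⋙ StructuredArrow.map (Φ.c.map (homOfLE (Fin.zero_le (δ 0)))).unop).obj j :=
    fun j => congrArg (fun g => StructuredArrow.mk g) (Φ.natc (Fin.zero_le (δ 0)) j).symm
  refine CategoryTheory.Functor.ext e fun j j' h => StructuredArrow.hom_ext _ _ ?_
  simp only [StructuredArrow.comp_right, StructuredArrow.eqToHom_right]
  exact Eq.trans rfl ((Category.id_comp _).trans (Category.comp_id _)).symm

lemma col_faceA (Φ : BiData L p q) (ε : Face q' q) :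
    (Φ.faceA ε).col = Φ.col ⋙
      (Over.map (L.map (Φ.a.map (homOfLE (Fin.zero_le (ε 0)))))).op := by
  have e : ∀ i, (Φ.faceA ε).col.obj i =
      (Φ.col ⋙ (Over.map (L.map (Φ.a.map (homOfLE (Fin.zero_le (ε 0)))))).op).obj i :=
    fun i => congrArg (fun g => op (Over.mk g)) (Φ.nata i (Fin.zero_le (ε 0))).symm
  refine CategoryTheory.Functor.ext e fun i i' h => ?_
  refine Quiver.Hom.unop_inj (Over.OverMorphism.ext ?_)
  simp only [unop_comp, eqToHom_unop, Over.comp_left, Over.eqToHom_left]
  exact Eq.trans rfl ((congrArg (· ≫ _) (Category.id_comp _)).trans (Category.comp_id _)).symm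

lemma ofRow_face (c : ComposableArrows Dᵒᵖ p)
    (o : ComposableArrows (StructuredArrow (c.obj 0).unop L) q) (δ : Face p' p) :
    ofRow (δ.monotone.functor ⋙ c : ComposableArrows Dᵒᵖ p')
        (o ⋙ StructuredArrow.map (c.map (homOfLE (Fin.zero_le (δ 0)))).unop :) =
      (ofRow c o).faceC δ := by
  exact ext_app fun i j => (Category.assoc _ _ _).symm.trans (congrArg (· ≫ (o.obj j).hom)
    (unop_map_trans c (Fin.zero_le (δ 0)) (δ.monotone (Fin.zero_le i))))

lemma ofCol_face (a : ComposableArrows A q)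
    (o : ComposableArrows (Over (L.obj (a.obj 0)))ᵒᵖ p) (ε : Face q' q) :
    ofCol (ε.monotone.functor ⋙ a : ComposableArrows A q')
        (o ⋙ (Over.map (L.map (a.map (homOfLE (Fin.zero_le (ε 0)))))).op :) =
      (ofCol a o).faceA ε := by
  exact ext_app fun i j => (Category.assoc _ _ _).trans (congrArg ((o.obj i).unop.hom ≫ ·)
    (map_trans_map L a (Fin.zero_le (ε 0)) (ε.monotone (Fin.zero_le j))))

/-- The point of the first double realisation. -/
noncomputable def rowPt (Φ : BiData L p q) (x : Simp p) (y : Simp q) : Fat (Hoc (commaF L)) :=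
  Real.mk (X := Hoc (commaF L))
    (⟨Φ.c, Real.mk (X := nerve (StructuredArrow (Φ.c.obj 0).unop L)) Φ.row y⟩ :
      HocObj (commaF L) p) x

/-- The point of the second double realisation. -/
noncomputable def colPt (Φ : BiData L p q) (x : Simp p) (y : Simp q) : Fat (Hoc (sliceF L)) :=
  Real.mk (X := Hoc (sliceF L))
    (⟨Φ.a, Real.mk (X := nerve (Over (L.obj (Φ.a.obj 0)))ᵒᵖ) Φ.col x⟩ : HocObj (sliceF L) q) y

lemma colPt_faceC (Φ : BiData L p q) (δ : Face p' p) (x : Simp p') (y : Simp q) :
    (Φ.faceC δ).colPt x y = Φ.colPt (push δ x) y := by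
  refine congrArg (fun e => Real.mk (X := Hoc (sliceF L)) (⟨Φ.a, e⟩ : HocObj (sliceF L) q) y) ?_
  exact glue (X := nerve (Over (L.obj (Φ.a.obj 0)))ᵒᵖ) δ Φ.col x

lemma colPt_faceA (Φ : BiData L p q) (ε : Face q' q) (x : Simp p) (y : Simp q') :
    (Φ.faceA ε).colPt x y = Φ.colPt x (push ε y) := by
  refine Eq.trans ?_ (glue (X := Hoc (sliceF L)) ε
    (⟨Φ.a, Real.mk (X := nerve (Over (L.obj (Φ.a.obj 0)))ᵒᵖ) Φ.col x⟩ : HocObj (sliceF L) q) y)
  refine congrArg (fun e => Real.mk (X := Hoc (sliceF L))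
    (⟨(ε.monotone.functor ⋙ Φ.a : ComposableArrows A q'), e⟩ : HocObj (sliceF L) q') y) ?_
  exact congrArg (fun o => Real.mk (X := nerve (Over (L.obj (Φ.a.obj (ε 0))))ᵒᵖ) o x) (col_faceA Φ ε)

lemma rowPt_faceA (Φ : BiData L p q) (ε : Face q' q) (x : Simp p) (y : Simp q') :
    (Φ.faceA ε).rowPt x y = Φ.rowPt x (push ε y) := by
  refine congrArg (fun e => Real.mk (X := Hoc (commaF L)) (⟨Φ.c, e⟩ : HocObj (commaF L) p) x) ?_
  exact glue (X := nerve (StructuredArrow (Φ.c.obj 0).unop L)) ε Φ.row y

lemma rowPt_faceC (Φ : BiData L p q) (δ : Face p' p) (x : Simp p') (y : Simp q) :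
    (Φ.faceC δ).rowPt x y = Φ.rowPt (push δ x) y := by
  refine Eq.trans ?_ (glue (X := Hoc (commaF L)) δ
    (⟨Φ.c, Real.mk (X := nerve (StructuredArrow (Φ.c.obj 0).unop L)) Φ.row y⟩ : HocObj (commaF L) p) x)
  refine congrArg (fun e => Real.mk (X := Hoc (commaF L))
    (⟨(δ.monotone.functor ⋙ Φ.c : ComposableArrows Dᵒᵖ p'), e⟩ : HocObj (commaF L) p') x) ?_
  exact congrArg (fun o => Real.mk (X := nerve (StructuredArrow (Φ.c.obj (δ 0)).unop L)) o y)
    (row_faceC Φ δ)

end BiData

end Vale.Agent.P259.Real
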