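import Vale.Agent.P259.Real.Fat
import Mathlib.Topology.CompactOpen
import Mathlib.Topology.UnitInterval
import Mathlib.Algebra.BigOperators.Field
import Mathlib.Topology.Connected.Basic
import Mathlib.Topology.LocallyConstant.Basic
import Mathlib.Topology.Homotopy.Equiv

/-!
The cover of the fat realisation of a semi-simplicial set by order-refinement pieces: pieces are
open, contract linearly onto their centres, finitely many of them intersect in a disjoint union of
pieces, and over a piece a map of semi-simplicial spaces deforms onto the fibre over the centre.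
(P259.)
-/

namespace Vale.Agent.P259.Real

open Finset Topology unitInterval

universe u v

section Above

variable {p q : ℕ}

/-- `x` refines the order of the coordinates of `u`. -/
def Above (u x : Simp p) : Prop :=
  (∀ i j, u j < u i → x j < x i) ∧ ∀ i, 0 < u i → 0 < x i

lemma Above.refl (u : Simp p) : Above u u := ⟨fun _ _ h => h, fun _ h => h⟩

lemma Above.trans {u w x : Simp p} (h : Above u w) (h' : Above w x) : Above u x :=
  ⟨fun i j hij => h'.1 i j (h.1 i j hij), fun i hi => h'.2 i (h.2 i hi)⟩

lemma eq_zero_of_not_pos {x : Simp p} {i : Fin (p + 1)} (h : ¬ 0 < x i) : x i = 0 :=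
  le_antisymm (not_lt.1 h) (stdSimplex.zero_le x i)

lemma push_pos_iff (δ : Face p q) (t : Simp p) (j : Fin (q + 1)) :
    0 < push δ t j ↔ ∃ i, δ i = j ∧ 0 < t i := by
  constructor
  · intro h
    by_cases hj : ∃ i, δ i = j
    · obtain ⟨i, rfl⟩ := hj
      exact ⟨i, rfl, by rwa [push_apply] at h⟩
    · rw [not_exists] at hj
      rw [push_apply_of_notMem δ t hj] at h
      exact absurd h (lt_irrefl _)
  · rintro ⟨i, rfl, hi⟩
    rwa [push_apply]

lemma above_push_iff (δ : Face p q) {u x : Simp p} :
    Above (push δ u) (push δ x) ↔ Above u x := by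
  constructor
  · intro h
    refine ⟨fun i j hij => ?_, fun i hi => ?_⟩
    · have := h.1 (δ i) (δ j) (by rwa [push_apply, push_apply])
      rwa [push_apply, push_apply] at this
    · have := h.2 (δ i) (by rwa [push_apply])
      rwa [push_apply] at this
  · intro h
    refine ⟨fun i j hij => ?_, fun i hi => ?_⟩
    · have hi : 0 < push δ u i := lt_of_le_of_lt (stdSimplex.zero_le _ j) hij
      obtain ⟨a, rfl, ha⟩ := (push_pos_iff δ u i).1 hi
      by_cases hj : ∃ b, δ b = j
      · obtain ⟨b, rfl⟩ := hj
        rw [push_apply, push_apply] at hij ⊢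
        exact h.1 a b hij
      · rw [not_exists] at hj
        rw [push_apply_of_notMem δ x hj, push_apply]
        exact h.2 a ha
    · obtain ⟨a, rfl, ha⟩ := (push_pos_iff δ u i).1 hi
      rw [push_apply]
      exact h.2 a ha

lemma isOpen_above (u : Simp p) : IsOpen {x : Simp p | Above u x} := by
  simp only [Above, Set.ofPred_and, Set.ofPred_forall]
  refine IsOpen.inter (isOpen_iInter_of_finite fun i => isOpen_iInter_of_finite fun j => ?_)
    (isOpen_iInter_of_finite fun i => ?_)
  · exact isOpen_iInter_of_finite fun _ => isOpen_lt (continuous_coord j) (continuous_coord i)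
  · exact isOpen_iInter_of_finite fun _ => isOpen_lt continuous_const (continuous_coord i)

/-- A face carrying an interior point below `x` is determined by its dimension. -/
lemma face_unique_of_above {b : Simp p} (hb : IsInterior b) {δ δ' : Face p q} {x : Simp q}
    (h : Above (push δ b) x) (h' : Above (push δ' b) x) : δ = δ' := by
  have hS : univ.image δ = univ.image δ' := by
    by_contra hne
    have hcard : (univ.image δ').card = (univ.image δ).card := by
      rw [card_image_of_injective _ δ.injective, card_image_of_injective _ δ'.injective]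
    obtain ⟨i, hi, hi'⟩ := not_subset.1 fun hs => hne (eq_of_subset_of_card_le hs hcard.le)
    obtain ⟨j, hj, hj'⟩ := not_subset.1 fun hs =>
      hne (eq_of_subset_of_card_le hs hcard.ge).symm
    obtain ⟨a, -, rfl⟩ := mem_image.1 hi
    obtain ⟨a', -, rfl⟩ := mem_image.1 hj
    have h1 : x (δ' a') < x (δ a) := h.1 _ _ (by
      rw [push_apply, push_apply_of_notMem δ b fun k hk => hj' (mem_image.2 ⟨k, mem_univ k, hk⟩)]
      exact hb a)
    have h2 : x (δ a) < x (δ' a') := h'.1 _ _ (by
      rw [push_apply, push_apply_of_notMem δ' b fun k hk => hi' (mem_image.2 ⟨k, mem_univ k, hk⟩)]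
      exact hb a')
    exact lt_irrefl _ (h1.trans h2)
  refine DFunLike.coe_injective ((δ.strictMono.range_inj δ'.strictMono).1 ?_)
  simpa using congrArg (fun T : Finset (Fin (q + 1)) => (T : Set (Fin (q + 1)))) hS

/-- A face whose image lies in that of another factors through it. -/
lemma exists_factor {r : ℕ} (δ : Face p r) (ε : Face q r) (h : ∀ i, ∃ k, ε k = δ i) :
    ∃ η : Face p q, η.trans ε = δ := by
  choose g hg using h
  refine ⟨OrderEmbedding.ofStrictMono g fun i j hij => ε.lt_iff_lt.1 ?_, ?_⟩
  · rw [hg, hg]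
    exact δ.strictMono hij
  · exact DFunLike.ext _ _ fun i => hg i

/-- The average of finitely many points of a simplex. -/
noncomputable def mean {ι : Type*} [Fintype ι] [Nonempty ι] (u : ι → Simp p) : Simp p :=
  ⟨fun i => (∑ k, u k i) / (Fintype.card ι : ℝ),
    fun i => div_nonneg (sum_nonneg fun k _ => stdSimplex.zero_le _ _) (Nat.cast_nonneg _), by
      rw [← sum_div, sum_comm]
      simp⟩

lemma mean_apply {ι : Type*} [Fintype ι] [Nonempty ι] (u : ι → Simp p) (i : Fin (p + 1)) :
    mean u i = (∑ k, u k i) / (Fintype.card ι : ℝ) := rfl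

lemma push_mean {ι : Type*} [Fintype ι] [Nonempty ι] (δ : Face p q) (u : ι → Simp p) :
    push δ (mean u) = mean fun k => push δ (u k) := by
  refine stdSimplex.ext (funext fun j => ?_)
  by_cases hj : ∃ i, δ i = j
  · obtain ⟨i, rfl⟩ := hj
    simp only [push_apply, mean_apply]
  · rw [not_exists] at hj
    simp [mean_apply, push_apply_of_notMem δ _ hj]

lemma mean_pos {ι : Type*} [Fintype ι] [Nonempty ι] (u : ι → Simp p) {i : Fin (p + 1)} (k : ι)
    (h : 0 < u k i) : 0 < mean u i :=
  div_pos (sum_pos' (fun l _ => stdSimplex.zero_le _ _) ⟨k, mem_univ k, h⟩)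
    (Nat.cast_pos.2 Fintype.card_pos)

lemma mean_above {ι : Type*} [Fintype ι] [Nonempty ι] {u : ι → Simp p} {x : Simp p}
    (h : ∀ k, Above (u k) x) : Above (mean u) x := by
  refine ⟨fun i j hij => ?_, fun i hi => ?_⟩
  · by_contra hx
    refine absurd hij (not_lt.2 ?_)
    rw [mean_apply, mean_apply]
    exact div_le_div_of_nonneg_right (sum_le_sum fun k _ => not_lt.1 fun hk => hx ((h k).1 i j hk))
      (Nat.cast_nonneg _)
  · by_contra hx
    have : ∀ k, u k i = 0 := fun k => eq_zero_of_not_pos fun hk => hx ((h k).2 i hk)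
    rw [mean_apply, sum_eq_zero fun k _ => this k, zero_div] at hi
    exact lt_irrefl _ hi

lemma above_mean {ι : Type*} [Fintype ι] [Nonempty ι] {u : ι → Simp p} {x : Simp p}
    (h : ∀ k, Above (u k) x) (k : ι) : Above (u k) (mean u) := by
  refine ⟨fun i j hij => ?_, fun i hi => mean_pos u k hi⟩
  rw [mean_apply, mean_apply, div_lt_div_iff_of_pos_right (Nat.cast_pos.2 Fintype.card_pos)]
  refine sum_lt_sum (fun _ _ => not_lt.1 fun hl => ?_) ⟨k, mem_univ k, hij⟩
  exact lt_asymm ((h k).1 i j hij) ((h _).1 j i hl)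

/-- The point of the segment from `x` to `u` at time `s`. -/
noncomputable def mix (s : I) (x u : Simp p) : Simp p :=
  ⟨fun i => (1 - (s : ℝ)) * x i + (s : ℝ) * u i,
    fun i => add_nonneg (mul_nonneg (sub_nonneg.2 s.2.2) (stdSimplex.zero_le _ _))
      (mul_nonneg s.2.1 (stdSimplex.zero_le _ _)), by
      rw [sum_add_distrib, ← mul_sum, ← mul_sum]
      simp⟩

lemma mix_apply (s : I) (x u : Simp p) (i : Fin (p + 1)) :
    mix s x u i = (1 - (s : ℝ)) * x i + (s : ℝ) * u i := rfl

lemma mix_zero (x u : Simp p) : mix 0 x u = x :=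
  stdSimplex.ext (funext fun i => by simp [mix_apply])

lemma mix_one (x u : Simp p) : mix 1 x u = u :=
  stdSimplex.ext (funext fun i => by simp [mix_apply])

lemma push_mix (δ : Face p q) (s : I) (x u : Simp p) :
    push δ (mix s x u) = mix s (push δ x) (push δ u) := by
  refine stdSimplex.ext (funext fun j => ?_)
  by_cases hj : ∃ i, δ i = j
  · obtain ⟨i, rfl⟩ := hj
    simp only [push_apply, mix_apply]
  · rw [not_exists] at hj
    simp [mix_apply, push_apply_of_notMem δ _ hj]

lemma above_mix {u x : Simp p} (h : Above u x) (s : I) : Above u (mix s x u) := by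
  refine ⟨fun i j hij => ?_, fun i hi => ?_⟩
  · have := h.1 i j hij
    simp only [mix_apply]
    rcases eq_or_lt_of_le s.2.1 with hs | hs
    · simp [← hs, this]
    · nlinarith [s.2.2]
  · have := h.2 i hi
    simp only [mix_apply]
    rcases eq_or_lt_of_le s.2.1 with hs | hs
    · simp [← hs, this]
    · nlinarith [s.2.2, stdSimplex.zero_le x i]

lemma continuous_mix : Continuous fun z : I × Simp p × Simp p => mix z.1 z.2.1 z.2.2 := by
  refine Continuous.subtype_mk (continuous_pi fun i => ?_) _
  exact ((continuous_const.sub (continuous_subtype_val.comp continuous_fst)).mul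
    ((continuous_coord i).comp (continuous_fst.comp continuous_snd))).add
    ((continuous_subtype_val.comp continuous_fst).mul
      ((continuous_coord i).comp (continuous_snd.comp continuous_snd)))

end Above

variable {S : SSpace.{u}}

/-- The cell containing a point. -/
noncomputable abbrev base (c : Fat S) : S.obj (dim c) := (normal c).2.1

/-- The coordinates of a point in its cell. -/
noncomputable abbrev centre (c : Fat S) : Simp (dim c) := (normal c).2.2

lemma mk_base (c : Fat S) : mk (base c) (centre c) = c := mk_normal c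

lemma interior_centre (c : Fat S) : IsInterior (centre c) := interior_normal c

/-- `δ` witnesses that `(τ, x)` lies in the piece of `c`. -/
def Wit (c : Fat S) {p : ℕ} (τ : S.obj p) (x : Simp p) (δ : Face (dim c) p) : Prop :=
  S.face δ τ = base c ∧ Above (push δ (centre c)) x

lemma Wit.unique {c : Fat S} {p : ℕ} {τ : S.obj p} {x : Simp p} {δ δ' : Face (dim c) p}
    (h : Wit c τ x δ) (h' : Wit c τ x δ') : δ = δ' :=
  face_unique_of_above (interior_centre c) h.2 h'.2

lemma Wit.mk_eq {c : Fat S} {p : ℕ} {τ : S.obj p} {x : Simp p} {δ : Face (dim c) p}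
    (h : Wit c τ x δ) : mk τ (push δ (centre c)) = c := by
  rw [← glue, h.1, mk_base]

lemma wit_push_iff (c : Fat S) {p q : ℕ} (ε : Face p q) (τ : S.obj q) (x : Simp p)
    (δ : Face (dim c) p) : Wit c τ (push ε x) (δ.trans ε) ↔ Wit c (S.face ε τ) x δ := by
  rw [Wit, Wit, push_trans, above_push_iff, S.face_comp]

lemma Wit.exists_factor {c : Fat S} {p q : ℕ} {ε : Face p q} {τ : S.obj q} {x : Simp p}
    {δ : Face (dim c) q} (h : Wit c τ (push ε x) δ) :
    ∃ η : Face (dim c) p, η.trans ε = δ := by
  refine Vale.Agent.P259.Real.exists_factor δ ε fun i => ?_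
  have hpos := h.2.2 (δ i) (by rw [push_apply]; exact interior_centre c i)
  obtain ⟨k, hk, -⟩ := (push_pos_iff ε x (δ i)).1 hpos
  exact ⟨k, hk⟩

/-- The piece of the cover centred at `c`. -/
def Piece (c : Fat S) : Set (Fat S) :=
  {z | ∃ δ, Wit c (normal z).2.1 (normal z).2.2 δ}

lemma mem_piece_mk (c : Fat S) {p : ℕ} (τ : S.obj p) (x : Simp p) :
    mk τ x ∈ Piece c ↔ ∃ δ, Wit c τ x δ := by
  obtain ⟨ε, hy, hs, -⟩ := normal_spec τ x
  simp only at ε hy hs
  show (∃ δ, Wit c (normal (mk τ x)).2.1 (normal (mk τ x)).2.2 δ) ↔ _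
  rw [hy]
  constructor
  · rintro ⟨δ, hδ⟩
    exact ⟨δ.trans ε,
      (congrArg (fun y => Wit c τ y (δ.trans ε)) hs).mp ((wit_push_iff c ε τ _ δ).2 hδ)⟩
  · rintro ⟨δ, hδ⟩
    rw [← hs] at hδ
    obtain ⟨η, rfl⟩ := hδ.exists_factor
    exact ⟨η, (wit_push_iff c ε τ _ η).1 hδ⟩

lemma mem_piece_self (c : Fat S) : c ∈ Piece c := by
  have h : push (OrderEmbedding.ofStrictMono id strictMono_id) (centre c) = centre c :=
    stdSimplex.ext (funext fun i =>
      push_apply (OrderEmbedding.ofStrictMono id strictMono_id) (centre c) i)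
  refine ⟨OrderEmbedding.ofStrictMono id strictMono_id, S.face_id _ _ fun _ => rfl, ?_⟩
  show Above (push _ (centre c)) (centre c)
  rw [h]
  exact Above.refl _

lemma piece_subset_of_mem {c c' : Fat S} (h : c' ∈ Piece c) : Piece c' ⊆ Piece c := by
  obtain ⟨δ, hδ⟩ := h
  intro z hz
  obtain ⟨ε, hε⟩ := hz
  refine ⟨δ.trans ε, ?_, ?_⟩
  · rw [S.face_comp, hε.1]
    exact hδ.1
  · rw [push_trans]
    exact ((above_push_iff ε).2 hδ.2).trans hε.2

lemma isOpen_piece [∀ p, DiscreteTopology (S.obj p)] (c : Fat S) : IsOpen (Piece c) := by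
  refine isOpen_iff.2 fun p => ?_
  simp only [mem_piece_mk, Wit, Set.ofPred_exists]
  refine isOpen_iUnion fun δ => ?_
  show IsOpen ((fun z : S.obj p × Simp p => z.1) ⁻¹' {τ | S.face δ τ = base c} ∩
    (fun z : S.obj p × Simp p => z.2) ⁻¹' {x | Above (push δ (centre c)) x})
  exact ((isOpen_discrete _).preimage continuous_fst).inter
    ((isOpen_above _).preimage continuous_snd)

section Merge

variable {ι : Type*} [Fintype ι] [Nonempty ι] (c : ι → Fat S)

/-- `d` is obtained by merging the centres `c` at the point `z`. -/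
def IsMerge (z d : Fat S) : Prop :=
  ∃ δ : ∀ k, Face (dim (c k)) (dim z),
    (∀ k, Wit (c k) (base z) (centre z) (δ k)) ∧
      mk (base z) (mean fun k => push (δ k) (centre (c k))) = d

variable {c}

lemma IsMerge.unique {z d d' : Fat S} (h : IsMerge c z d) (h' : IsMerge c z d') : d = d' := by
  obtain ⟨δ, hδ, rfl⟩ := h
  obtain ⟨δ', hδ', rfl⟩ := h'
  rw [show δ = δ' from funext fun k => (hδ k).unique (hδ' k)]

lemma exists_isMerge {z : Fat S} (h : ∀ k, z ∈ Piece (c k)) : ∃ d, IsMerge c z d :=
  ⟨_, fun k => (h k).choose, fun k => (h k).choose_spec, rfl⟩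

lemma IsMerge.mem {z d : Fat S} (h : IsMerge c z d) : z ∈ Piece d := by
  obtain ⟨δ, hδ, rfl⟩ := h
  obtain ⟨ε, hy, hs, -⟩ := normal_spec (base z) (mean fun k => push (δ k) (centre (c k)))
  simp only at ε hy hs
  refine ⟨ε, hy.symm, ?_⟩
  show Above (push ε (normal _).2.2) _
  rw [hs]
  exact mean_above fun k => (hδ k).2

lemma IsMerge.of_mem {z d w : Fat S} (h : IsMerge c z d) (hw : w ∈ Piece d) :
    IsMerge c w d := by
  obtain ⟨δ, hδ, hd⟩ := h
  obtain ⟨ε, hε⟩ := hw
  obtain ⟨ρ, hy, hs, -⟩ :=
    show Carrier ⟨dim z, base z, mean fun k => push (δ k) (centre (c k))⟩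
      ⟨dim d, base d, centre d⟩ from hd ▸ normal_spec _ _
  simp only at ρ hy hs
  have hfac : ∀ k, ∃ η : Face (dim (c k)) (dim d), η.trans ρ = δ k := fun k => by
    refine exists_factor _ _ fun i => ?_
    have hpos : 0 < mean (fun k => push (δ k) (centre (c k))) (δ k i) :=
      mean_pos _ k (by rw [push_apply]; exact interior_centre _ i)
    rw [← hs] at hpos
    obtain ⟨a, ha, -⟩ := (push_pos_iff ρ _ _).1 hpos
    exact ⟨a, ha⟩
  choose η hη using hfac
  have hb : centre d = mean fun k => push (η k) (centre (c k)) := push_injective ρ (by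
    rw [hs, push_mean]
    simp only [← push_trans, hη])
  refine ⟨fun k => (η k).trans ε, fun k => ⟨?_, ?_⟩, ?_⟩
  · rw [S.face_comp]
    show S.face (η k) (S.face ε (base w)) = base (c k)
    rw [hε.1, hy, ← S.face_comp, hη]
    exact (hδ k).1
  · rw [push_trans]
    refine ((above_push_iff ε).2 ((above_push_iff ρ).1 ?_)).trans hε.2
    rw [← push_trans, hη, hs]
    exact above_mean (fun l => (hδ l).2) k
  · simp only [push_trans, ← push_mean, ← hb]
    exact hε.mk_eq

lemma IsMerge.subset {z d : Fat S} (h : IsMerge c z d) (k : ι) : Piece d ⊆ Piece (c k) := by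
  intro w hw
  obtain ⟨δ, hδ, -⟩ := h.of_mem hw
  exact ⟨δ k, hδ k⟩

end Merge

/-- A preconnected set inside finitely many pieces lies in one piece inside all of them. -/
lemma exists_piece_subset [∀ p, DiscreteTopology (S.obj p)] {ι : Type*} [Fintype ι] [Nonempty ι]
    {c : ι → Fat S} {K : Set (Fat S)} (hK : IsPreconnected K) (hne : K.Nonempty)
    (h : ∀ k, K ⊆ Piece (c k)) :
    ∃ d, K ⊆ Piece d ∧ ∀ k, Piece d ⊆ Piece (c k) := by
  obtain ⟨z, hz⟩ := hne
  obtain ⟨d, hd⟩ := exists_isMerge (c := c) fun k => h k hz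
  refine ⟨d, fun w hw => ?_, hd.subset⟩
  by_contra hwd
  let B : Set (Fat S) := ⋃ e ∈ {e | e ≠ d ∧ ∃ y, IsMerge c y e}, Piece e
  have hcov : K ⊆ Piece d ∪ B := fun y hy => by
    obtain ⟨e, he⟩ := exists_isMerge (c := c) fun k => h k hy
    by_cases hed : e = d
    · exact Or.inl (hed ▸ he.mem)
    · exact Or.inr (Set.mem_biUnion ⟨hed, y, he⟩ he.mem)
  obtain ⟨y, -, hyd, hyB⟩ := hK (Piece d) B (isOpen_piece d)
    (isOpen_biUnion fun e _ => isOpen_piece e) hcov ⟨z, hz, hd.mem⟩
    ⟨w, hw, (hcov hw).resolve_left hwd⟩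
  obtain ⟨e, ⟨hed, y', he⟩, hye⟩ := Set.mem_iUnion₂.1 hyB
  exact hed ((he.of_mem hye).unique (hd.of_mem hyd))

/-! ### Over a piece -/

section Over

variable {X : SSpace.{v}} (π : SMap X S) (c : Fat S)

/-- The part of `X` over the cell of `c`. -/
abbrev Fibre := {e : X.obj (dim c) // π.app (dim c) e = base c}

/-- The part of the realisation of `X` over the piece of `c`. -/
abbrev Over' := ↥(Fat.map π ⁻¹' Piece c)

lemma over_iff {p : ℕ} (e : X.obj p) (x : Simp p) :
    mk e x ∈ Fat.map π ⁻¹' Piece c ↔ ∃ δ, Wit c (π.app p e) x δ := by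
  rw [Set.mem_preimage, map_mk, mem_piece_mk]

lemma exists_rep (w : Over' π c) :
    ∃ δ, Wit c (π.app _ (normal w.1).2.1) (normal w.1).2.2 δ :=
  (over_iff π c _ _).1 (by rw [mk_normal]; exact w.2)

/-- The witness of a point over the piece. -/
noncomputable def witness (w : Over' π c) : Face (dim c) (normal w.1).1 := (exists_rep π c w).choose

lemma witness_spec (w : Over' π c) :
    Wit c (π.app _ (normal w.1).2.1) (normal w.1).2.2 (witness π c w) :=
  (exists_rep π c w).choose_spec

/-- Projection to the part over the cell of `c`, as a function. -/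
noncomputable def retractFun (w : Over' π c) : Fibre π c :=
  ⟨X.face (witness π c w) (normal w.1).2.1, by rw [π.natural]; exact (witness_spec π c w).1⟩

/-- The linear deformation towards the centre, as a function. -/
noncomputable def slideFun (s : I) (w : Over' π c) : Fat X :=
  mk (normal w.1).2.1 (mix s (normal w.1).2.2 (push (witness π c w) (centre c)))

variable {π c}

lemma witness_eq (w : Over' π c) {p : ℕ} {e : X.obj p} {x : Simp p} (he : mk e x = w.1)
    {δ : Face (dim c) p} (hδ : Wit c (π.app p e) x δ) :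
    retractFun π c w = ⟨X.face δ e, by rw [π.natural]; exact hδ.1⟩ ∧
      ∀ s, slideFun π c s w = mk e (mix s x (push δ (centre c))) := by
  obtain ⟨ε, hy, hs, -⟩ := show Carrier ⟨p, e, x⟩ (normal w.1) from he ▸ normal_spec e x
  simp only at ε hy hs
  have hw : (witness π c w).trans ε = δ := by
    refine Wit.unique ?_ hδ
    rw [← hs, wit_push_iff, ← π.natural, ← hy]
    exact witness_spec π c w
  refine ⟨Subtype.ext ?_, fun s => ?_⟩
  · show X.face (witness π c w) (normal w.1).2.1 = X.face δ e
    rw [hy, ← X.face_comp, hw]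
  · rw [slideFun, hy, glue, push_mix, ← push_trans, hw, hs]

lemma slideFun_mem (s : I) (w : Over' π c) : slideFun π c s w ∈ Fat.map π ⁻¹' Piece c :=
  (over_iff π c _ _).2 ⟨witness π c w, (witness_spec π c w).1, above_mix (witness_spec π c w).2 s⟩

variable (π c) [∀ p, DiscreteTopology (S.obj p)]

/-- The representatives over a piece, by dimension. -/
abbrev RepOver (p : ℕ) := {a : X.obj p × Simp p // ∃ δ, Wit c (π.app p a.1) a.2 δ}

lemma isLocallyConstant_witness (p : ℕ) :
    IsLocallyConstant fun a : RepOver π c p => a.2.choose := by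
  refine (IsLocallyConstant.iff_exists_open _).2 fun a => ?_
  refine ⟨{b | π.app p b.1.1 = π.app p a.1.1 ∧ Above (push a.2.choose (centre c)) b.1.2}, ?_,
    ⟨rfl, a.2.choose_spec.2⟩, fun b hb => ?_⟩
  · exact (((isOpen_discrete {τ | τ = π.app p a.1.1}).preimage ((π.app p).continuous.comp
      (continuous_fst.comp continuous_subtype_val))).inter
      ((isOpen_above _).preimage (continuous_snd.comp continuous_subtype_val)))
  · exact b.2.choose_spec.unique ⟨by rw [hb.1]; exact a.2.choose_spec.1, hb.2⟩

lemma isQuotientMap_over :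
    IsQuotientMap ((Fat.map π ⁻¹' Piece c).restrictPreimage (Quot.mk (Glue X) : Pre X → Fat X)) :=
  isQuotientMap_quot_mk.restrictPreimage_isOpen
    ((isOpen_piece c).preimage (Fat.map π).continuous)

/-- Sort representatives over a piece by dimension. -/
noncomputable def sortRep (a : (Quot.mk (Glue X) : Pre X → Fat X) ⁻¹' (Fat.map π ⁻¹' Piece c)) :
    Σ p, RepOver π c p :=
  ⟨a.1.1, ⟨a.1.2, (over_iff π c a.1.2.1 a.1.2.2).1 a.2⟩⟩

omit [∀ p, DiscreteTopology (S.obj p)] in
lemma continuous_sortRep : Continuous (sortRep π c) := by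
  let j : (Σ p, RepOver π c p) → Pre X := fun b => ⟨b.1, b.2.1⟩
  have hj : IsEmbedding j := by
    rw [show j = Sigma.map id (fun p (b : RepOver π c p) => b.1) from rfl]
    exact (isEmbedding_sigmaMap Function.injective_id).2 fun p => IsEmbedding.subtypeVal
  exact hj.continuous_iff.2 continuous_subtype_val

lemma continuous_retractFun : Continuous (retractFun π c) := by
  refine continuous_induced_rng.2 ((isQuotientMap_over π c).continuous_iff.2 ?_)
  let g : (Σ p, RepOver π c p) → X.obj (dim c) := fun b => X.face b.2.2.choose b.2.1.1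
  have hg : Continuous g := continuous_sigma fun p => continuous_iff_continuousAt.2 fun a => by
    refine ((X.face a.2.choose).continuous.comp
      (continuous_fst.comp continuous_subtype_val)).continuousAt.congr ?_
    filter_upwards [(isLocallyConstant_witness π c p).eventually_eq a] with b hb
    show X.face a.2.choose b.1.1 = X.face b.2.choose b.1.1
    rw [hb]
  refine (hg.comp (continuous_sortRep π c)).congr fun a => ?_
  exact (congrArg Subtype.val (witness_eq
    ((Fat.map π ⁻¹' Piece c).restrictPreimage (Quot.mk (Glue X) : Pre X → Fat X) a)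
    (show mk a.1.2.1 a.1.2.2 = _ from rfl) (sortRep π c a).2.2.choose_spec).1).symm

/-- Projection onto the part over the cell of `c`. -/
noncomputable def retract : C(Over' π c, Fibre π c) :=
  ⟨retractFun π c, continuous_retractFun π c⟩

lemma continuous_slideFun : Continuous fun z : I × Over' π c => slideFun π c z.1 z.2 := by
  refine (isQuotientMap_over π c).continuous_lift_prod_right ?_
  let g : I × (Σ p, RepOver π c p) → Fat X := fun b =>
    mk b.2.2.1.1 (mix b.1 b.2.2.1.2 (push b.2.2.2.choose (centre c)))
  have hg : Continuous g := by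
    refine (Homeomorph.prodComm I (Σ p, RepOver π c p)).symm.comp_continuous_iff'.1 ?_
    refine (Homeomorph.sigmaProdDistrib
      (X := fun p => RepOver π c p) (Y := I)).symm.comp_continuous_iff'.1 ?_
    refine continuous_sigma fun p => ?_
    have h1 : Continuous fun a : RepOver π c p × I => a.1.1 :=
      continuous_subtype_val.comp continuous_fst
    have h2 : Continuous fun a : RepOver π c p × I => push a.1.2.choose (centre c) :=
      ((isLocallyConstant_witness π c p).comp fun δ => push δ (centre c)).continuous.comp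
        continuous_fst
    exact ((continuous_mk p).comp ((continuous_fst.comp h1).prodMk
      (continuous_mix.comp
        (continuous_snd.prodMk ((continuous_snd.comp h1).prodMk h2))))).congr fun _ => rfl
  refine (hg.comp (continuous_fst.prodMk ((continuous_sortRep π c).comp continuous_snd))).congr
    fun b => ?_
  exact ((witness_eq
    ((Fat.map π ⁻¹' Piece c).restrictPreimage (Quot.mk (Glue X) : Pre X → Fat X) b.2)
    (show mk b.2.1.2.1 b.2.1.2.2 = _ from rfl) (sortRep π c b.2).2.2.choose_spec).2 b.1).symm

/-- The linear deformation towards the centre. -/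
noncomputable def slide : C(I × Over' π c, Over' π c) :=
  ⟨fun z => ⟨slideFun π c z.1 z.2, slideFun_mem z.1 z.2⟩,
    (continuous_slideFun π c).subtype_mk _⟩

omit [∀ p, DiscreteTopology (S.obj p)] in
lemma fibre_mem (e : Fibre π c) : mk e.1 (centre c) ∈ Fat.map π ⁻¹' Piece c := by
  rw [Set.mem_preimage, map_mk, e.2, mk_base]
  exact mem_piece_self c

/-- The fibre over the centre sits over the piece. -/
noncomputable def fibreIncl : C(Fibre π c, Over' π c) :=
  ⟨fun e => ⟨mk e.1 (centre c), fibre_mem π c e⟩,
    ((continuous_mk _).comp (continuous_subtype_val.prodMk continuous_const)).subtype_mk _⟩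

lemma retract_fibreIncl (e : Fibre π c) : retract π c (fibreIncl π c e) = e := by
  obtain ⟨δ, hδ⟩ := (over_iff π c e.1 (centre c)).1 (fibre_mem π c e)
  have h1 : OrderEmbedding.ofStrictMono id strictMono_id = δ := by
    refine Wit.unique ⟨?_, ?_⟩ hδ
    · rw [S.face_id _ _ fun _ => rfl]
      exact e.2
    · convert Above.refl (centre c) using 1
      exact stdSimplex.ext (funext fun i =>
        push_apply (OrderEmbedding.ofStrictMono id strictMono_id) (centre c) i)
  refine (witness_eq (fibreIncl π c e) rfl hδ).1.trans (Subtype.ext ?_)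
  exact X.face_id _ _ fun i => by rw [← h1]; rfl

lemma slide_zero (w : Over' π c) : slide π c (0, w) = w :=
  Subtype.ext (show slideFun π c 0 w = w.1 by rw [slideFun, mix_zero, mk_normal])

lemma slide_one (w : Over' π c) : slide π c (1, w) = fibreIncl π c (retract π c w) := by
  refine Subtype.ext ?_
  show slideFun π c 1 w = mk (retractFun π c w).1 (centre c)
  rw [slideFun, mix_one, retractFun, glue]

/-- Over a piece, everything deforms onto the fibre over the centre. -/
noncomputable def overEquiv : ContinuousMap.HomotopyEquiv (Fibre π c) (Over' π c) where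
  toFun := fibreIncl π c
  invFun := retract π c
  left_inv := by
    rw [show (retract π c).comp (fibreIncl π c) = ContinuousMap.id _ from
      ContinuousMap.ext (retract_fibreIncl π c)]
  right_inv := ⟨(({ toContinuousMap := slide π c
                    map_zero_left := slide_zero π c
                    map_one_left := slide_one π c } :
    ContinuousMap.Homotopy (ContinuousMap.id _) ((fibreIncl π c).comp (retract π c)))).symm⟩

/-- For nested pieces the map between the fibres over the centres is a face map. -/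
lemma exists_transition {c' : Fat S} (h : c' ∈ Piece c) :
    ∃ (δ : Face (dim c) (dim c')) (hδ : S.face δ (base c') = base c), ∀ e : Fibre π c',
      retract π c ⟨mk e.1 (centre c'), piece_subset_of_mem h (fibre_mem π c' e)⟩ =
        ⟨X.face δ e.1, by rw [π.natural, e.2, hδ]⟩ := by
  obtain ⟨δ, hδ⟩ := h
  exact ⟨δ, hδ.1, fun e =>
    (witness_eq _ rfl (show Wit c (π.app _ e.1) (centre c') δ by rw [e.2]; exact hδ)).1⟩

end Over

end Vale.Agent.P259.Real
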