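import Vale.Agent.P259.Real.HocDef
import Vale.Agent.P259.Top.Space

/-!
The fibre of a homotopy colimit over a vertex, in the homotopy fibre. (P259.)
-/

namespace Vale.Agent.P259.Real

open CategoryTheory unitInterval

variable {D : Type} [SmallCategory D]

/-- The fibre over a vertex, in the homotopy fibre. -/
noncomputable def hocFibre (F : D ⥤ TopCat.{0}) (d : D) :
    C(F.obj d, Top.HFib (proj F) (vertex d)) :=
  ⟨fun o => ⟨(mk (X := Hoc F) ⟨ComposableArrows.mk₀ d, o⟩ (stdSimplex.vertex 0),
      ContinuousMap.const I (vertex d)), rfl, rfl⟩,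
    ((((continuous_mk (X := Hoc F) 0).comp
      ((@continuous_sigmaMk _ (fun c : (nerve D).obj 0 => F.obj ((c : ComposableArrows D 0).obj 0))
        _ (ComposableArrows.mk₀ d)).prodMk
          (continuous_const (y := stdSimplex.vertex 0))))).prodMk
      (continuous_const (y := ContinuousMap.const I (vertex d)))).subtype_mk _⟩

lemma hocFibre_path (F : D ⥤ TopCat.{0}) (d : D) (o : F.obj d) (t : I) :
    (hocFibre F d o).1.2 t = vertex d := rfl

end Vale.Agent.P259.Real
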