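import Vale.Agent.P259.Real.Nerve
import Mathlib.CategoryTheory.Opposites

/-!
Reversal of chains: the classifying space of the opposite category is that of the category. (P259.)
-/

namespace Vale.Agent.P259.Real

open CategoryTheory Finset Opposite

universe v u v' u' w z'

variable {C : Type u} [Category.{v} C] {D : Type u'} [Category.{v'} D]

/-- A chain read backwards through a functor to the opposite category. -/
def dualFunctor (F : C ⥤ Dᵒᵖ) {p : ℕ} (c : ComposableArrows C p) : (Fin (p + 1))ᵒᵈ ⥤ D where
  obj i := (F.obj (c.obj (OrderDual.ofDual i))).unop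
  map {i j} h := (F.map (c.map (homOfLE (show OrderDual.ofDual j ≤ OrderDual.ofDual i from
    OrderDual.ofDual_le_ofDual.2 (leOfHom h))))).unop
  map_id i := by
    refine (congrArg Quiver.Hom.unop ?_).trans rfl
    refine (congrArg F.map (c.map_id _)).trans (F.map_id _)
  map_comp {i j k} f g := by
    rw [← unop_comp, ← F.map_comp, ← c.map_comp]
    rfl

/-- The reversal of the positions. -/
def revDual {p : ℕ} (i : Fin (p + 1)) : (Fin (p + 1))ᵒᵈ := OrderDual.toDual i.rev

lemma revDual_strictMono {p : ℕ} : StrictMono (revDual (p := p)) := fun _ _ h =>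
  OrderDual.toDual_lt_toDual.2 (Fin.rev_lt_rev.2 h)

lemma mem_range_revDual {p : ℕ} (a : (Fin (p + 1))ᵒᵈ) : a ∈ Set.range (revDual (p := p)) :=
  ⟨(OrderDual.ofDual a).rev, by simp [revDual]⟩

/-- The weights carried to the dual order. -/
noncomputable def dualWeights {p : ℕ} (t : Simp p) : stdSimplex ℝ (Fin (p + 1))ᵒᵈ :=
  stdSimplex.map OrderDual.toDual t

lemma dual_face_strictMono {p q : ℕ} (δ : Face p q) :
    StrictMono fun i : (Fin (p + 1))ᵒᵈ => OrderDual.toDual (δ (OrderDual.ofDual i)) :=
  fun _ _ h => OrderDual.toDual_lt_toDual.2 (δ.strictMono (OrderDual.ofDual_lt_ofDual.2 h))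

/-- The value of the reversal on a representative. -/
noncomputable def flipVal (F : C ⥤ Dᵒᵖ) {p : ℕ} (c : ComposableArrows C p) (t : Simp p) : BC D :=
  mk (X := nerve D) (revDual_strictMono.monotone.functor ⋙ dualFunctor F c : ComposableArrows D p)
    (restrict revDual_strictMono.injective (dualWeights t)
      fun a ha => absurd (mem_range_revDual a) ha)

lemma flipVal_eq (F : C ⥤ Dᵒᵖ) {p : ℕ} (c : ComposableArrows C p) (t : Simp p) {m : ℕ}
    {χ : Fin (m + 1) → (Fin (p + 1))ᵒᵈ} (hχ : StrictMono χ) (r : Simp m)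
    (h : stdSimplex.map χ r = dualWeights t) :
    flipVal F c t =
      mk (X := nerve D) (hχ.monotone.functor ⋙ dualFunctor F c : ComposableArrows D m) r :=
  mk_eq_of_map_eq (dualFunctor F c) revDual_strictMono hχ
    (restrict revDual_strictMono.injective (dualWeights t)
      fun a ha => absurd (mem_range_revDual a) ha) r ((map_restrict _ _ _).trans h.symm)

lemma flipVal_push (F : C ⥤ Dᵒᵖ) {p q : ℕ} (δ : Face p q) (c : ComposableArrows C q)
    (t : Simp p) :
    flipVal F (δ.monotone.functor ⋙ c : ComposableArrows C p) t = flipVal F c (push δ t) := by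
  rw [flipVal_eq F c (push δ t) ((dual_face_strictMono δ).comp revDual_strictMono)
    (restrict revDual_strictMono.injective (dualWeights t)
      fun a ha => absurd (mem_range_revDual a) ha)
    ((stdSimplex.map_comp_apply _ _ _).symm.trans
      ((congrArg (stdSimplex.map fun i : (Fin (p + 1))ᵒᵈ =>
          OrderDual.toDual (δ (OrderDual.ofDual i))) (map_restrict _ _ _)).trans
        ((stdSimplex.map_comp_apply (OrderDual.toDual : Fin (p + 1) → (Fin (p + 1))ᵒᵈ)
          (fun i : (Fin (p + 1))ᵒᵈ => OrderDual.toDual (δ (OrderDual.ofDual i))) t).trans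
          (stdSimplex.map_comp_apply (⇑δ)
            (OrderDual.toDual : Fin (q + 1) → (Fin (q + 1))ᵒᵈ) t).symm)))]
  rfl

/-- The map induced by a functor to the opposite category. -/
noncomputable def flipMap (F : C ⥤ Dᵒᵖ) : C(BC C, BC D) where
  toFun := Quot.lift (fun a : Pre (nerve C) => flipVal F (a.2.1 : ComposableArrows C a.1) a.2.2)
    (by rintro _ _ ⟨δ, c, t⟩; exact flipVal_push F δ c t)
  continuous_toFun := continuous_iff.2 fun p => continuous_prod_of_discrete_left.2 fun c => by
    refine (continuous_mk (X := nerve D) p).comp ((continuous_const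
      (y := simplex (revDual_strictMono.monotone.functor ⋙
        dualFunctor F (c : ComposableArrows C p)))).prodMk (Continuous.subtype_mk
          (continuous_pi fun k => ?_) _))
    show Continuous fun t : Simp p => dualWeights t (revDual k)
    exact (continuous_apply (revDual k)).comp (continuous_subtype_val.comp
      (stdSimplex.continuous_map (OrderDual.toDual : Fin (p + 1) → (Fin (p + 1))ᵒᵈ)))

lemma flipMap_mk (F : C ⥤ Dᵒᵖ) {p : ℕ} (c : ComposableArrows C p) (t : Simp p) :
    flipMap F (mk (X := nerve C) c t) = flipVal F c t := rfl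

lemma flipMap_bmap {B : Type w} [Category.{z'} B] (H : B ⥤ C) (F : C ⥤ Dᵒᵖ) :
    (flipMap F).comp (bmap H) = flipMap (H ⋙ F) := by
  ext z
  obtain ⟨p, c, t, rfl⟩ := exists_mk z
  rfl

lemma bmap_flipMap {B : Type w} [Category.{z'} B] (F : C ⥤ Dᵒᵖ) (M : D ⥤ B) :
    (bmap M).comp (flipMap F) = flipMap (F ⋙ M.op) := by
  ext z
  obtain ⟨p, c, t, rfl⟩ := exists_mk z
  rfl

lemma flipMap_vertex (F : C ⥤ Dᵒᵖ) (a : C) : flipMap F (vertex a) = vertex (F.obj a).unop := by
  rw [vertex, flipMap_mk, flipVal_eq F _ _ (χ := fun _ : Fin 1 => OrderDual.toDual 0)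
    (fun a b h => absurd h (by omega)) (stdSimplex.vertex 0)
    ((stdSimplex.map_vertex _ _).trans (stdSimplex.map_vertex _ _).symm)]
  exact congrArg (fun c => mk (X := nerve D) c _) (ComposableArrows.ext₀ rfl)

/-- Reversal, from the opposite category. -/
noncomputable def opMap (D : Type u') [Category.{v'} D] : C(BC Dᵒᵖ, BC D) := flipMap (𝟭 Dᵒᵖ)

/-- Reversal, to the opposite category. -/
noncomputable def opInv (D : Type u') [Category.{v'} D] : C(BC D, BC Dᵒᵖ) := flipMap (opOp D)

/-- Reversing twice. -/
lemma flipMap_flipMap {B : Type w} [Category.{z'} B] (F : C ⥤ Dᵒᵖ) (G : D ⥤ Bᵒᵖ) :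
    (flipMap G).comp (flipMap F) = bmap (F ⋙ G.leftOp) := by
  ext z
  obtain ⟨p, c, t, rfl⟩ := exists_mk z
  let r : Simp p := restrict revDual_strictMono.injective (dualWeights t)
    fun a ha => absurd (mem_range_revDual a) ha
  let c' : ComposableArrows D p :=
    revDual_strictMono.monotone.functor ⋙ dualFunctor F (c : ComposableArrows C p)
  let Ψ : Fin (p + 1) ⥤ B := (c : ComposableArrows C p) ⋙ F ⋙ G.leftOp
  have hrr : StrictMono fun i : Fin (p + 1) => (i.rev).rev := fun a b h => by simpa using h
  show flipVal G c' r = mk (X := nerve B) (Ψ : ComposableArrows B p) t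
  refine Eq.trans ?_ (mk_eq_of_map_eq Ψ hrr strictMono_id
    (restrict revDual_strictMono.injective (dualWeights r)
      fun a ha => absurd (mem_range_revDual a) ha) t ?_)
  · refine congrArg (fun d => mk (X := nerve B) d _) ?_
    exact CategoryTheory.Functor.ext (fun i => rfl) fun i j h =>
      Eq.trans rfl ((Category.id_comp _).trans (Category.comp_id _)).symm
  · refine stdSimplex.ext (funext fun i => ?_)
    refine Eq.trans ?_
      (map_apply_of_injective (f := (id : Fin (p + 1) → Fin (p + 1))) Function.injective_id t i).symm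
    have hi : i = (fun k : Fin (p + 1) => (k.rev).rev) i := (Fin.rev_rev i).symm
    conv_lhs => rw [hi]
    refine (map_apply_of_injective hrr.injective _ _).trans ?_
    show stdSimplex.map OrderDual.toDual r (OrderDual.toDual i.rev) = t i
    rw [map_apply_of_injective OrderDual.toDual.injective]
    show stdSimplex.map OrderDual.toDual t (OrderDual.toDual (i.rev).rev) = t i
    rw [map_apply_of_injective OrderDual.toDual.injective, Fin.rev_rev]

/-- `BC Dᵒᵖ` is `BC D`. -/
noncomputable def opHomeo (D : Type u') [Category.{v'} D] : BC Dᵒᵖ ≃ₜ BC D where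
  toFun := opMap D
  invFun := opInv D
  left_inv z := by
    rw [← ContinuousMap.comp_apply, opInv, opMap, flipMap_flipMap]
    obtain ⟨p, c, t, rfl⟩ := exists_mk z
    rfl
  right_inv z := by
    rw [← ContinuousMap.comp_apply, opInv, opMap, flipMap_flipMap]
    obtain ⟨p, c, t, rfl⟩ := exists_mk z
    rfl
  continuous_toFun := (opMap D).continuous
  continuous_invFun := (opInv D).continuous

lemma opMap_vertex (d : D) : opMap D (vertex (op d)) = vertex d := flipMap_vertex _ _

lemma opMap_natural {A : Type w} [Category.{z'} A] (F : A ⥤ D) :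
    (opMap D).comp (bmap F.op) = (bmap F).comp (opMap A) := by
  rw [opMap, opMap, flipMap_bmap, bmap_flipMap]
  rfl

end Vale.Agent.P259.Real
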