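import Vale.Agent.P259.Real.Swap
import Vale.Agent.P259.Real.HocFibre
import Vale.Agent.P259.Real.Span
import Vale.Agent.P259.Real.Op

/-!
The double realisation of a functor, its two projections, and the join homotopy between them.
(P259.)
-/

namespace Vale.Agent.P259.Real

open CategoryTheory Opposite unitInterval

variable {A D : Type} [SmallCategory A] [SmallCategory D] (L : A ⥤ D)

/-- The double realisation. -/
abbrev Tot : Type := Fat (Hoc (commaF L))

/-- The projection to `BC D`. -/
noncomputable def toD : C(Tot L, BC D) := (opMap D).comp (proj (commaF L))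

/-- The projection to `BC A`. -/
noncomputable def pA : C(Tot L, BC A) := (proj (sliceF L)).comp (toSlice L)

variable {L}

/-- A double chain with the first chain read backwards along `κ`, as join data. -/
def revJoin {p q m : ℕ} (Φ : BiData L p q) (κ : Fin (m + 1) → Fin (p + 1)) (hκ : Antitone κ) :
    JoinData
      ({ obj := fun i => (Φ.c.obj (κ i)).unop
         map := fun h => (Φ.c.map (homOfLE (hκ (leOfHom h)))).unop
         map_id := fun i => congrArg Quiver.Hom.unop (Φ.c.map_id (κ i))
         map_comp := fun h h' => (unop_map_trans Φ.c (hκ (leOfHom h')) (hκ (leOfHom h))).symm } :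
        ComposableArrows D m)
      (Φ.a ⋙ L : ComposableArrows D q) where
  app i j := Φ.app (κ i) j
  natl h j := Φ.natc (hκ h) j
  natr i _ _ h := Φ.nata (κ i) h

lemma antitone_rev (p : ℕ) : Antitone (Fin.rev : Fin (p + 1) → Fin (p + 1)) :=
  fun _ _ h => Fin.rev_le_rev.2 h

/-- The weights of a point read backwards. -/
noncomputable def revSimp {p : ℕ} (x : Simp p) : Simp p :=
  restrict revDual_strictMono.injective (dualWeights x) fun a ha =>
    absurd (mem_range_revDual a) ha

lemma revSimp_apply {p : ℕ} (x : Simp p) (i : Fin (p + 1)) : revSimp x i = x i.rev :=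
  map_apply_of_injective OrderDual.toDual.injective x i.rev

/-- The reversed face. -/
def revFace {p q : ℕ} (δ : Face p q) : Face p q :=
  OrderEmbedding.ofStrictMono (fun i => (δ i.rev).rev)
    fun _ _ h => Fin.rev_lt_rev.2 (δ.strictMono (Fin.rev_lt_rev.2 h))

lemma revSimp_push {p q : ℕ} (δ : Face p q) (x : Simp p) :
    revSimp (push δ x) = push (revFace δ) (revSimp x) := by
  refine stdSimplex.ext (funext fun k => ?_)
  show revSimp (push δ x) k = push (revFace δ) (revSimp x) k
  rw [revSimp_apply]
  by_cases h : ∃ i, δ i = k.rev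
  · obtain ⟨i, hi⟩ := h
    have hk : revFace δ i.rev = k := by
      show (δ (i.rev).rev).rev = k
      rw [Fin.rev_rev, hi, Fin.rev_rev]
    conv_rhs => rw [← hk]
    rw [push_apply, revSimp_apply, Fin.rev_rev, ← hi, push_apply]
  · rw [not_exists] at h
    rw [push_apply_of_notMem δ x h, push_apply_of_notMem]
    intro i hi
    refine h i.rev ?_
    rw [← hi]
    exact (Fin.rev_rev _).symm

/-- The value of the join homotopy on a double chain. -/
noncomputable def jointVal {p q : ℕ} (Φ : BiData L p q) (s : I) (x : Simp p) (y : Simp q) : BC D :=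
  joinVal (revJoin Φ Fin.rev (antitone_rev p)) (σ s) (revSimp x) y

lemma joinVal_revJoin_congr {p q m : ℕ} (Φ : BiData L p q) {κ κ' : Fin (m + 1) → Fin (p + 1)}
    (hκ : Antitone κ) (hκ' : Antitone κ') (h : κ = κ') (s : I) (r : Simp m) (y : Simp q) :
    joinVal (revJoin Φ κ hκ) s r y = joinVal (revJoin Φ κ' hκ') s r y := by
  subst h
  rfl

lemma push_refl {p : ℕ} (x : Simp p) :
    push (OrderEmbedding.ofStrictMono id strictMono_id) x = x :=
  stdSimplex.ext (funext fun i => push_apply (OrderEmbedding.ofStrictMono id strictMono_id) x i)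

lemma jointVal_faceA {p q q' : ℕ} (Φ : BiData L p q) (ε : Face q' q) (s : I) (x : Simp p)
    (y : Simp q') : jointVal (Φ.faceA ε) s x y = jointVal Φ s x (push ε y) := by
  refine Eq.trans ?_ ((joinVal_face (revJoin Φ Fin.rev (antitone_rev p))
    (OrderEmbedding.ofStrictMono id strictMono_id) ε (σ s) (revSimp x) y).trans ?_)
  · rfl
  · rw [push_refl]
    rfl

lemma jointVal_faceC {p p' q : ℕ} (Φ : BiData L p q) (δ : Face p' p) (s : I) (x : Simp p')
    (y : Simp q) : jointVal (Φ.faceC δ) s x y = jointVal Φ s (push δ x) y := by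
  have h1 : Antitone fun i : Fin (p' + 1) => δ i.rev := fun a b h =>
    δ.monotone (Fin.rev_le_rev.2 h)
  have h2 : Antitone fun i : Fin (p' + 1) => ((revFace δ) i).rev := fun a b h =>
    Fin.rev_le_rev.2 ((revFace δ).monotone h)
  refine Eq.trans (b := joinVal (revJoin Φ _ h1) (σ s) (revSimp x) y) rfl ?_
  refine (joinVal_revJoin_congr Φ h1 h2 (funext fun i => (Fin.rev_rev _).symm) _ _ _).trans ?_
  refine Eq.trans ?_ ((joinVal_face (revJoin Φ Fin.rev (antitone_rev p)) (revFace δ)
    (OrderEmbedding.ofStrictMono id strictMono_id) (σ s) (revSimp x) y).trans ?_)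
  · rfl
  · rw [push_refl, ← revSimp_push]
    rfl

variable (L)

/-- The join homotopy on a fibre. -/
noncomputable def jointFun {p : ℕ} (c : ComposableArrows Dᵒᵖ p) (x : Simp p) (s : I)
    (e : BC (StructuredArrow (c.obj 0).unop L)) : BC D :=
  Quot.lift (fun w : Pre (nerve (StructuredArrow (c.obj 0).unop L)) =>
      jointVal (BiData.ofRow c (w.2.1 : ComposableArrows _ w.1)) s x w.2.2)
    (by rintro _ _ ⟨ε, o, y⟩; exact jointVal_faceA (BiData.ofRow c o) ε s x y) e

/-- The join homotopy, as a function. -/
noncomputable def joint (z : I × Tot L) : BC D :=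
  Quot.lift (fun w : Pre (Hoc (commaF L)) => jointFun L w.2.1.1 w.2.2 z.1 w.2.1.2) (by
    rintro _ _ ⟨δ, ⟨c, e⟩, x⟩
    obtain ⟨q, o, y, rfl⟩ := exists_mk (X := nerve (StructuredArrow _ L)) e
    exact (congrArg (fun Φ => jointVal Φ z.1 x y) (BiData.ofRow_face c o δ)).trans
      (jointVal_faceC (BiData.ofRow c o) δ z.1 x y)) z.2

lemma continuous_joint : Continuous (joint L) := by
  refine hoc_continuous_interval fun p c => continuous_fat_prod fun q o => ?_
  let Φ := BiData.ofRow (L := L) c (o : ComposableArrows _ q)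
  have hr : Continuous (revSimp (p := p)) :=
    (continuous_pi fun i => (continuous_apply (revDual i)).comp
      (continuous_subtype_val.comp (stdSimplex.continuous_map
        (OrderDual.toDual : Fin (p + 1) → (Fin (p + 1))ᵒᵈ)))).subtype_mk _
  exact (continuous_joinVal (revJoin Φ Fin.rev (antitone_rev p))).comp
    ((unitInterval.continuous_symm.comp (continuous_snd.comp continuous_snd)).prodMk
      ((hr.comp (continuous_fst.comp continuous_snd)).prodMk continuous_fst))

lemma joint_zero (z : Tot L) : joint L (0, z) = bmap L (pA L z) := by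
  obtain ⟨p, ⟨c, e⟩, x, rfl⟩ := exists_mk z
  obtain ⟨q, o, y, rfl⟩ := exists_mk (X := nerve (StructuredArrow _ L)) e
  show joinVal (revJoin (BiData.ofRow c o) Fin.rev (antitone_rev p)) (σ 0) (revSimp x) y = _
  rw [unitInterval.symm_zero]
  exact joinVal_one _ _ _

lemma joint_one (z : Tot L) : joint L (1, z) = toD L z := by
  obtain ⟨p, ⟨c, e⟩, x, rfl⟩ := exists_mk z
  obtain ⟨q, o, y, rfl⟩ := exists_mk (X := nerve (StructuredArrow _ L)) e
  show joinVal (revJoin (BiData.ofRow c o) Fin.rev (antitone_rev p)) (σ 1) (revSimp x) y = _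
  rw [unitInterval.symm_one]
  refine (joinVal_zero _ _ _).trans ?_
  refine congrArg (fun d => mk (X := nerve D) d (revSimp x)) ?_
  exact CategoryTheory.Functor.ext (fun i => rfl) fun i j h =>
    Eq.trans rfl ((Category.id_comp _).trans (Category.comp_id _)).symm

/-- The join homotopy. -/
noncomputable def J : ContinuousMap.Homotopy ((bmap L).comp (pA L)) (toD L) where
  toFun := joint L
  continuous_toFun := continuous_joint L
  map_zero_left := joint_zero L
  map_one_left := joint_one L

/-- The fibre over an object. -/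
noncomputable def inFibre (d : D) (o : BC (StructuredArrow d L)) : Tot L :=
  (hocFibre (commaF L) (op d) o).1.1

lemma pA_inFibre (d : D) (o : BC (StructuredArrow d L)) :
    pA L (inFibre L d o) = bmap (StructuredArrow.proj d L) o := by
  obtain ⟨q, o, y, rfl⟩ := exists_mk o
  rfl

/-- The arrows out of `d`. -/
def outArrow (d : D) :
    (Functor.const (StructuredArrow d L)).obj d ⟶ StructuredArrow.proj d L ⋙ L :=
  ⟨fun o => o.hom, fun o o' f => by
    show 𝟙 _ ≫ o'.hom = o.hom ≫ L.map f.right
    rw [Category.id_comp, StructuredArrow.w f]⟩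

lemma J_inFibre (d : D) (o : BC (StructuredArrow d L)) (t : I) :
    J L (t, inFibre L d o) = segVal (outArrow L d) (σ t, o) := by
  obtain ⟨q, o, y, rfl⟩ := exists_mk o
  have hv : revSimp (stdSimplex.vertex (0 : Fin 1) : Simp 0) = stdSimplex.vertex 0 :=
    stdSimplex.ext (funext fun i => by
      obtain rfl : i = 0 := Subsingleton.elim (α := Fin 1) _ _
      exact (revSimp_apply _ _).trans (congrArg _ (Subsingleton.elim (α := Fin 1) _ _)))
  show joinVal (revJoin (BiData.ofRow (ComposableArrows.mk₀ (op d)) o) Fin.rev (antitone_rev 0))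
    (σ t) (revSimp (stdSimplex.vertex 0)) y = joinVal (coneData (outArrow L d) o) (σ t)
      (stdSimplex.vertex 0) y
  rw [hv]
  have key : ∀ {c c' : ComposableArrows D 0} {e : ComposableArrows D q} (_ : c = c')
      (ψ : JoinData c e) (ψ' : JoinData c' e), (∀ i j, HEq (ψ.app i j) (ψ'.app i j)) →
      joinVal ψ (σ t) (stdSimplex.vertex 0) y = joinVal ψ' (σ t) (stdSimplex.vertex 0) y := by
    intro c c' e hc ψ ψ' hψ
    subst hc
    obtain ⟨a, ha, hb⟩ := ψ
    obtain ⟨a', ha', hb'⟩ := ψ'
    obtain rfl : a = a' := funext fun i => funext fun j => eq_of_heq (hψ i j)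
    rfl
  refine key (ComposableArrows.ext₀ rfl) _ (coneData (outArrow L d) o) fun i j => ?_
  obtain rfl : i = 0 := Subsingleton.elim (α := Fin 1) _ _
  exact heq_of_eq (Category.id_comp ((o : ComposableArrows (StructuredArrow d L) q).obj j).hom)

end Vale.Agent.P259.Real
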