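import Vale.Agent.P259.Real.Cover
import Vale.Agent.P259.Real.HocFibre
import Vale.Agent.P259.Top.Fibre
import Vale.Agent.P259.Top.CompRight
import Mathlib.Topology.Homotopy.Contractible
import Mathlib.Topology.Homeomorph.Lemmas
import Mathlib.Data.Fin.VecNotation

/-!
Fibres of a map of semi-simplicial spaces over a discrete base are homotopy fibres as soon as the
transition maps between fibres are good; in particular the value of a functor to spaces is the
homotopy fibre of its homotopy colimit over the nerve. (P259.)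
-/

noncomputable section

namespace Vale.Agent.P259.Real

open CategoryTheory Topology Set unitInterval Vale.Agent.P259.Top

section General

variable {S X : SSpace.{0}} (π : SMap X S) [∀ p, DiscreteTopology (S.obj p)]

/-- A face map between the fibres over two cells. -/
def faceFibre {p q : ℕ} {κ : S.obj p} {τ : S.obj q} (δ : Face p q) (hδ : S.face δ τ = κ) :
    C({e : X.obj q // π.app q e = τ}, {e : X.obj p // π.app p e = κ}) :=
  ⟨fun e => ⟨X.face δ e.1, (π.natural δ e.1).trans ((congrArg (S.face δ) e.2).trans hδ)⟩,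
    ((X.face δ).continuous.comp continuous_subtype_val).subtype_mk _⟩

/-- The identity map of a semi-simplicial space. -/
def idSMap (S : SSpace.{0}) : SMap S S where
  app _ := ContinuousMap.id _
  natural _ _ := rfl

omit [∀ p, DiscreteTopology (S.obj p)] in
lemma map_idSMap (z : Fat S) : Fat.map (idSMap S) z = z := by
  obtain ⟨p, x, t, rfl⟩ := exists_mk z
  rfl

/-- Pieces are weakly contractible. -/
lemma filler_piece (c : Fat S) : Filler (Piece c) := by
  have hset : Fat.map (idSMap S) ⁻¹' Piece c = Piece c := by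
    ext z
    rw [Set.mem_preimage, map_idSMap]
  let u : Unique (Fibre (idSMap S) c) :=
    { default := ⟨base c, rfl⟩, uniq := fun e => Subtype.ext e.2 }
  have : ContractibleSpace (Fibre (idSMap S) c) := by
    refine (contractible_iff_id_nullhomotopic _).2 ⟨u.default, ?_⟩
    rw [show ContinuousMap.id (Fibre (idSMap S) c) = ContinuousMap.const _ u.default from
      ContinuousMap.ext fun e => u.uniq e]
  have : ContractibleSpace (Over' (idSMap S) c) :=
    (overEquiv (idSMap S) c).symm.contractibleSpace
  exact hset ▸ Filler.of_contractible (Fat.map (idSMap S) ⁻¹' Piece c)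

/-- Inclusions of preimages of pieces are good when the transition maps are. -/
lemma subGood_piece {n : ℕ}
    (hT : ∀ {p q : ℕ} {κ : S.obj p} {τ : S.obj q} (δ : Face p q) (hδ : S.face δ τ = κ),
      Good n (faceFibre π δ hδ))
    {a b : Fat S} (hab : Piece a ⊆ Piece b) :
    SubGood n (Fat.map π ⁻¹' Piece a) (Fat.map π ⁻¹' Piece b) := by
  have ha : a ∈ Piece b := hab (mem_piece_self a)
  obtain ⟨δ, hδ, hcomp⟩ := exists_transition π b ha
  let i : C(Over' π a, Over' π b) :=
    ⟨Set.inclusion (preimage_mono hab), continuous_inclusion (preimage_mono hab)⟩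
  refine SubGood.of_good (preimage_mono hab) (?_ : Good n i)
  have hsq : ((⇑(retract π b) ∘ ⇑i) ∘ ⇑(fibreIncl π a)) = ⇑(faceFibre π δ hδ) :=
    funext fun e => hcomp e
  have h1 : Good n ((⇑(retract π b) ∘ ⇑i) ∘ ⇑(fibreIncl π a)) := hsq ▸ hT δ hδ
  have hi : Good n (fibreIncl π a) := WeakEq.of_homotopyEquiv (overEquiv π a) n
  have hr : Good n (retract π b) := WeakEq.of_homotopyEquiv (overEquiv π b).symm n
  have h2 : Good n (⇑(retract π b) ∘ ⇑i) :=
    h1.of_comp_right hi ((retract π b).continuous.comp i.continuous) (fibreIncl π a).continuous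
  exact h2.of_comp_left hr (retract π b).continuous i.continuous

/-- A point over the centre of a piece is the point of the fibre it retracts to. -/
lemma fibreIncl_retract (c : Fat S) (w : Over' π c) (hw : Fat.map π w.1 = c) :
    fibreIncl π c (retract π c w) = w := by
  rw [← slide_one]
  refine Subtype.ext ?_
  show slideFun π c 1 w = w.1
  obtain ⟨p, e, x, he⟩ := exists_mk w.1
  obtain ⟨ρ, hy, hs, -⟩ :=
    show Carrier ⟨p, π.app p e, x⟩ ⟨dim c, base c, centre c⟩ from
      (show normal (mk (π.app p e) x) = ⟨dim c, base c, centre c⟩ by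
        rw [← map_mk π e x, he, hw]) ▸ normal_spec (π.app p e) x
  simp only at ρ hy hs
  have hρ : Wit c (π.app p e) x ρ := ⟨hy.symm, by rw [hs]; exact Above.refl x⟩
  rw [(witness_eq w he hρ).2 1, mix_one, hs, he]

/-- The fibre over a cell, in the homotopy fibre over one of its interior points. -/
def cellFibre {p : ℕ} (τ : S.obj p) (t : Simp p) :
    C({e : X.obj p // π.app p e = τ}, HFib (Fat.map π) (mk τ t)) :=
  ⟨fun e => ⟨(mk e.1 t, ContinuousMap.const I (mk τ t)), by
      show mk τ t = Fat.map π (mk e.1 t)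
      rw [map_mk, e.2], rfl⟩,
    (((continuous_mk p).comp (continuous_subtype_val.prodMk continuous_const)).prodMk
      (continuous_const (y := ContinuousMap.const I (mk τ t)))).subtype_mk _⟩

/-- Fibres are homotopy fibres when the transition maps are good. -/
theorem cellFibre_good {n : ℕ}
    (hT : ∀ {p q : ℕ} {κ : S.obj p} {τ : S.obj q} (δ : Face p q) (hδ : S.face δ τ = κ),
      Good n (faceFibre π δ hδ))
    {p : ℕ} (τ : S.obj p) {t : Simp p} (ht : IsInterior t) : Good n (cellFibre π τ t) := by
  suffices key : ∀ c : Fat S, Good n (cellFibre π (base c) (centre c)) by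
    have h := key (mk τ t)
    show Good n (cellFibre π (⟨p, τ, t⟩ : Pre S).2.1 (⟨p, τ, t⟩ : Pre S).2.2)
    rw [← normal_mk_interior τ ht]
    exact h
  intro c
  let P : C(Fat X, Fat S) := Fat.map π
  have hinc : ∀ w : ↥(P ⁻¹' {c}), w.1 ∈ Fat.map π ⁻¹' Piece c := fun w => by
    show P w.1 ∈ Piece c
    rw [show P w.1 = c from w.2]; exact mem_piece_self c
  let inc : C(↥(P ⁻¹' {c}), Over' π c) :=
    ⟨fun w => ⟨w.1, hinc w⟩, continuous_subtype_val.subtype_mk hinc⟩
  have hjm : ∀ e : Fibre π c, mk e.1 (centre c) ∈ P ⁻¹' {c} := fun e => by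
    show Fat.map π (mk e.1 (centre c)) = c
    rw [map_mk, e.2, mk_base]
  let j : Fibre π c ≃ₜ ↥(P ⁻¹' {c}) :=
    { toFun := fun e => ⟨mk e.1 (centre c), hjm e⟩
      invFun := fun w => retract π c (inc w)
      left_inv := retract_fibreIncl π c
      right_inv := fun w => Subtype.ext
        ((congrArg Subtype.val (fibreIncl_retract π c (inc w) w.2) :))
      continuous_toFun :=
        ((continuous_mk _).comp (continuous_subtype_val.prodMk continuous_const)).subtype_mk hjm
      continuous_invFun := (retract π c).continuous.comp inc.continuous }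
  have hj : ∀ m, Good m j := WeakEq.of_homotopyEquiv j.toHomotopyEquiv
  have hfib : SubGood n (P ⁻¹' {c}) (P ⁻¹' Piece c) := by
    refine SubGood.of_good (preimage_mono (singleton_subset_iff.2 (mem_piece_self c))) ?_
    have h1 : Good n (⇑inc ∘ ⇑j) := WeakEq.of_homotopyEquiv (overEquiv π c) n
    exact h1.of_comp_right (hj n) inc.continuous j.continuous
  have hgood : Good n (fibIncl P c) := fibre_good P (fun a => Piece a) (fun a => isOpen_piece a)
    (fun x => ⟨x, mem_piece_self x⟩)
    (fun a b K hne hK ha hb => by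
      obtain ⟨d, hd, hds⟩ := exists_piece_subset (c := ![a, b]) hK hne fun k => by
        fin_cases k <;> assumption
      exact ⟨d, hd, hds 0, hds 1⟩)
    filler_piece (fun a b hab => subGood_piece π hT hab) c c (mem_piece_self c)
    (fun b hb => piece_subset_of_mem hb) hfib
  let cast : C(HFib P c, HFib (Fat.map π) (mk (base c) (centre c))) :=
    ⟨fun q => ⟨q.1, q.2.1, q.2.2.trans (mk_base c).symm⟩, continuous_subtype_val.subtype_mk _⟩
  let cast' : HFib P c ≃ₜ HFib (Fat.map π) (mk (base c) (centre c)) :=
    { toFun := cast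
      invFun := fun q => ⟨q.1, q.2.1, q.2.2.trans (mk_base c)⟩
      left_inv := fun _ => rfl
      right_inv := fun _ => rfl
      continuous_toFun := cast.continuous
      continuous_invFun := continuous_subtype_val.subtype_mk _ }
  have h2 : Good n (⇑cast ∘ (⇑(fibIncl P c) ∘ ⇑j)) :=
    Good.comp (WeakEq.of_homotopyEquiv cast'.toHomotopyEquiv n)
      (Good.comp hgood (hj n) j.continuous (fibIncl P c).continuous)
      ((fibIncl P c).continuous.comp j.continuous) cast.continuous
  have heq : ⇑cast ∘ (⇑(fibIncl P c) ∘ ⇑j) = ⇑(cellFibre π (base c) (centre c)) := by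
    funext e
    refine Subtype.ext (Prod.ext rfl (ContinuousMap.ext fun _ => ?_))
    exact (mk_base c).symm
  exact heq ▸ h2

end General

section Hocolim

variable {D : Type} [SmallCategory D] (F : D ⥤ TopCat.{0})

/-- The part of the homotopy colimit over a chain is the value at its first object. -/
def chainFibre {p : ℕ} (c : (nerve D).obj p) :
    F.obj ((c : ComposableArrows D p).obj 0) ≃ₜ
      {e : (Hoc F).obj p // (hocSMap F).app p e = c} :=
  IsEmbedding.toHomeomorphOfSurjective
    (f := fun o => ⟨⟨c, o⟩, rfl⟩)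
    (IsEmbedding.sigmaMk.codRestrict {e : HocObj F p | e.1 = c} fun _ => rfl)
    (fun e => by
      obtain ⟨⟨c', o⟩, h⟩ := e
      have h' : c' = c := h
      subst h'
      exact ⟨o, rfl⟩)

lemma faceFibre_good {n : ℕ} (h : ∀ {d d' : D} (f : d ⟶ d'), Good n (F.map f).hom) {p q : ℕ}
    {κ : (nerve D).obj p} {τ : (nerve D).obj q} (δ : Face p q) (hδ : (nerve D).face δ τ = κ) :
    Good n (faceFibre (hocSMap F) δ hδ) := by
  subst hδ
  let g := (τ : ComposableArrows D q).map (homOfLE (Fin.zero_le (δ 0)))
  have hκ : Good n (chainFibre F ((nerve D).face δ τ)) :=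
    WeakEq.of_homotopyEquiv (chainFibre F ((nerve D).face δ τ)).toHomotopyEquiv n
  have hτ : Good n (chainFibre F τ) :=
    WeakEq.of_homotopyEquiv (chainFibre F τ).toHomotopyEquiv n
  have h1 : Good n (⇑(chainFibre F ((nerve D).face δ τ)) ∘ ⇑(F.map g).hom) :=
    Good.comp hκ (h g) (F.map g).hom.continuous (chainFibre F _).continuous
  have heq : ⇑(chainFibre F ((nerve D).face δ τ)) ∘ ⇑(F.map g).hom =
      ⇑(faceFibre (hocSMap F) δ rfl) ∘ ⇑(chainFibre F τ) := rfl
  exact (heq ▸ h1).of_comp_right hτ (faceFibre (hocSMap F) δ rfl).continuous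
    (chainFibre F τ).continuous

/-- The value at `d` is the homotopy fibre of the homotopy colimit over the vertex `d`. -/
theorem hoc_fibre_good (n : ℕ) (h : ∀ {d d' : D} (f : d ⟶ d'), Good n (F.map f).hom) (d : D) :
    Good n (hocFibre F d) := by
  have ht : IsInterior (stdSimplex.vertex (0 : Fin 1) : Simp 0) := fun i => by
    obtain rfl : i = 0 := Fin.fin_one_eq_zero i
    simp
  have h1 := cellFibre_good (hocSMap F) (fun δ hδ => faceFibre_good F h δ hδ)
    (S := nerve D) (ComposableArrows.mk₀ d) ht
  have h2 : Good n (⇑(cellFibre (hocSMap F) (ComposableArrows.mk₀ d : (nerve D).obj 0)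
      (stdSimplex.vertex 0)) ∘ ⇑(chainFibre F (ComposableArrows.mk₀ d : (nerve D).obj 0))) :=
    Good.comp h1
      (WeakEq.of_homotopyEquiv (chainFibre F (ComposableArrows.mk₀ d)).toHomotopyEquiv n)
      (chainFibre F _).continuous (cellFibre (hocSMap F) _ _).continuous
  exact h2

end Hocolim

end Vale.Agent.P259.Real
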