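import Vale.Agent.P259.Real.Double
import Vale.Agent.P259.Real.Pieces

/-!
The projection of the double realisation to `BC A` is a weak equivalence as soon as the fibres of
homotopy colimits are homotopy fibres. (P259.)
-/

namespace Vale.Agent.P259.Real

open CategoryTheory Opposite Vale.Agent.P259.Top

variable {A D : Type} [SmallCategory A] [SmallCategory D] (L : A ⥤ D)

instance (a : A) : ContractibleSpace (BC (Over (L.obj a))ᵒᵖ) :=
  contractibleSpace_of_isInitial (Limits.initialOpOfTerminal Over.mkIdTerminal)

/-- The fibres of `sliceF L` are connected in every degree. -/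
lemma conn_sliceF (n : ℕ) (a : A) : Conn n ((sliceF L).obj a) :=
  Conn.of_contractible (A := BC (Over (L.obj a))ᵒᵖ)

/-- The projection to `BC A` is a weak equivalence, given the fibre theorem for `sliceF L`. -/
theorem pA_weakEq_of
    (h : ∀ n, (∀ {a a' : A} (f : a ⟶ a'), Good n ((sliceF L).map f).hom) →
      ∀ a, Good n (hocFibre (sliceF L) a)) :
    WeakEq (pA L) := by
  intro n
  have hF : ∀ a, Conn n (HFib (proj (sliceF L)) (vertex a)) := fun a =>
    (conn_sliceF L n a).of_good
      (h n (fun {a a'} _ => Good.of_conn _ (conn_sliceF L n a) (conn_sliceF L n a')) a)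
  have hp : Good n (proj (sliceF L)) := Good.of_hfib _ fun b => by
    obtain ⟨a, ha⟩ := exists_joined_vertex b
    exact ⟨_, ha, hF a⟩
  have hc : Good n (⇑(proj (sliceF L)) ∘ ⇑(toSlice L)) :=
    Good.comp hp (WeakEq.of_homotopyEquiv (swapHomeo L).toHomotopyEquiv n)
      (toSlice L).continuous (proj (sliceF L)).continuous
  exact hc

/-- The projection to `BC A` is a weak equivalence. -/
theorem pA_weakEq : WeakEq (pA L) :=
  pA_weakEq_of L fun n h a => hoc_fibre_good (sliceF L) n h a

end Vale.Agent.P259.Real
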