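import Vale.Agent.P259.Real.Nerve
import Mathlib.Topology.Category.TopCat.Basic

/-!
The homotopy colimit of a functor to spaces, over the fat nerve. (P259.)
-/

namespace Vale.Agent.P259.Real

open CategoryTheory

universe u

variable {D : Type u} [SmallCategory D]

/-- Simplices: a chain and a point over its first object. -/
abbrev HocObj (F : D ⥤ TopCat.{u}) (p : ℕ) : Type u :=
  Σ c : (nerve D).obj p, F.obj ((c : ComposableArrows D p).obj 0)

/-- The face map. -/
def hocFace (F : D ⥤ TopCat.{u}) {p q : ℕ} (δ : Face p q) (z : HocObj F q) : HocObj F p :=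
  ⟨(nerve D).face δ z.1, F.map ((z.1 : ComposableArrows D q).map (homOfLE (Fin.zero_le (δ 0)))) z.2⟩

/-- The homotopy colimit, as a semi-simplicial space. -/
def Hoc (F : D ⥤ TopCat.{u}) : SSpace.{u} where
  obj p := HocObj F p
  face {p q} δ := ⟨hocFace F δ, continuous_sigma fun c =>
    (continuous_sigmaMk (σ := fun c : (nerve D).obj p => F.obj ((c : ComposableArrows D p).obj 0))
      (i := (nerve D).face δ c)).comp
      (F.map ((c : ComposableArrows D q).map (homOfLE (Fin.zero_le (δ 0))))).hom.continuous⟩
  face_id {p} δ z h := by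
    obtain rfl : δ = OrderEmbedding.ofStrictMono id strictMono_id := by ext i; simp [h i]
    obtain ⟨c, e⟩ := z
    refine Sigma.ext rfl (heq_of_eq ?_)
    show F.map ((c : ComposableArrows D p).map (𝟙 (0 : Fin (p + 1)))) e = e
    exact ConcreteCategory.congr_hom
      ((congrArg F.map ((c : ComposableArrows D p).map_id 0)).trans (F.map_id _)) e
  face_comp {p q r} δ ε z := by
    obtain ⟨c, e⟩ := z
    refine Sigma.ext rfl (heq_of_eq ?_)
    show F.map ((c : ComposableArrows D r).map _) e =
      F.map ((c : ComposableArrows D r).map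
        (homOfLE (ε.monotone (Fin.zero_le (δ 0)))))
        (F.map ((c : ComposableArrows D r).map (homOfLE (Fin.zero_le (ε 0)))) e)
    rw [← ConcreteCategory.comp_apply, ← F.map_comp]
    exact ConcreteCategory.congr_hom (congrArg F.map
      ((c : ComposableArrows D r).map_comp (homOfLE (Fin.zero_le (ε 0)))
        (homOfLE (ε.monotone (Fin.zero_le (δ 0)))))) e

/-- The projection to the nerve. -/
def hocSMap (F : D ⥤ TopCat.{u}) : SMap (Hoc F) (nerve D) where
  app _ := ⟨fun z => z.1, continuous_sigma fun c => continuous_const⟩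
  natural _ _ := rfl

/-- The projection of the homotopy colimit. -/
def proj (F : D ⥤ TopCat.{u}) : C(Fat (Hoc F), BC D) := Fat.map (hocSMap F)

@[simp]
lemma proj_mk (F : D ⥤ TopCat.{u}) {p : ℕ} (z : (Hoc F).obj p) (t : Simp p) :
    proj F (mk z t) = mk (X := nerve D) z.1 t := rfl

end Vale.Agent.P259.Real
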