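import Vale.Agent.P259.Real.Nerve

/-!
The join of two chains with a coherent family of arrows from the first to the second, and the
straight segment between the two corresponding points of the classifying space. (P259.)
-/

namespace Vale.Agent.P259.Real

open CategoryTheory Finset

universe v u v' u'

variable {D : Type u} [Category.{v} D] {D' : Type u'} [Category.{v'} D']

/-- The ordered sum of two finite chains. -/
inductive JoinPos (p q : ℕ) : Type
  /-- A position in the first chain. -/
  | left (i : Fin (p + 1)) : JoinPos p q
  /-- A position in the second chain. -/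
  | right (j : Fin (q + 1)) : JoinPos p q

namespace JoinPos

variable {p q p' q' : ℕ}

/-- The rank in the concatenated chain. -/
def rank : JoinPos p q → ℕ
  | left i => i.1
  | right j => p + 1 + j.1

lemma rank_injective : Function.Injective (rank (p := p) (q := q)) := by
  intro a b h
  cases a with
  | left i => cases b with
    | left j => exact congrArg left (Fin.ext h)
    | right j =>
      have := i.2
      simp only [rank] at h
      omega
  | right i => cases b with
    | left j =>
      have := j.2
      simp only [rank] at h
      omega
    | right j =>
      simp only [rank] at h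
      exact congrArg right (Fin.ext (by omega))

instance : PartialOrder (JoinPos p q) := PartialOrder.lift rank rank_injective

instance : Fintype (JoinPos p q) :=
  Fintype.ofEquiv (Fin (p + 1) ⊕ Fin (q + 1))
    ⟨fun a => a.elim left right, fun a => match a with
      | left i => Sum.inl i
      | right j => Sum.inr j, fun a => by cases a <;> rfl, fun a => by cases a <;> rfl⟩

lemma le_left {i i' : Fin (p + 1)} (h : (left i : JoinPos p q) ≤ left i') : i ≤ i' := h

lemma le_right {j j' : Fin (q + 1)} (h : (right j : JoinPos p q) ≤ right j') : j ≤ j' := by
  have h' : p + 1 + j.1 ≤ p + 1 + j'.1 := h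
  exact Fin.le_def.2 (by omega)

lemma not_right_le_left {i : Fin (p + 1)} {j : Fin (q + 1)} :
    ¬ (right j : JoinPos p q) ≤ left i := by
  intro h
  have h' : p + 1 + j.1 ≤ i.1 := h
  omega

/-- Faces of both chains. -/
def face (δ : Face p' p) (ε : Face q' q) : JoinPos p' q' → JoinPos p q
  | left i => left (δ i)
  | right j => right (ε j)

lemma face_injective (δ : Face p' p) (ε : Face q' q) : Function.Injective (face δ ε) := by
  intro a b h
  cases a with
  | left i => cases b with
    | left j => exact congrArg left (δ.injective (left.inj h))
    | right j => exact absurd h (by simp [face])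
  | right i => cases b with
    | left j => exact absurd h (by simp [face])
    | right j => exact congrArg right (ε.injective (right.inj h))

lemma face_strictMono (δ : Face p' p) (ε : Face q' q) : StrictMono (face δ ε) := by
  refine Monotone.strictMono_of_injective ?_ (face_injective δ ε)
  intro a b h
  cases a with
  | left i => cases b with
    | left j => exact show (δ i).1 ≤ (δ j).1 from δ.monotone (le_left h)
    | right j =>
      show (δ i).1 ≤ p + 1 + (ε j).1
      omega
  | right i => cases b with
    | left j => exact absurd h not_right_le_left
    | right j =>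
      have := Fin.le_def.1 (ε.monotone (le_right h))
      show p + 1 + (ε i).1 ≤ p + 1 + (ε j).1
      omega

/-- The concatenated chain. -/
def enum (k : Fin (p + q + 2)) : JoinPos p q :=
  if h : k.1 < p + 1 then left ⟨k.1, h⟩ else right ⟨k.1 - (p + 1), by omega⟩

lemma rank_enum (k : Fin (p + q + 2)) : rank (enum k : JoinPos p q) = k.1 := by
  unfold enum
  split_ifs with h
  · rfl
  · simp only [rank]
    omega

lemma enum_strictMono : StrictMono (enum (p := p) (q := q)) := fun a b h =>
  lt_of_le_not_ge (show rank (enum a) ≤ rank (enum b) by rw [rank_enum, rank_enum]; exact h.le)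
    fun hc => absurd (show rank (enum b) ≤ rank (enum a) from hc) (by
      rw [rank_enum, rank_enum]
      exact not_le.2 h)

lemma mem_range_enum (a : JoinPos p q) : a ∈ Set.range (enum (p := p) (q := q)) := by
  refine ⟨⟨rank a, ?_⟩, rank_injective (rank_enum _)⟩
  cases a with
  | left i => simp only [rank]; omega
  | right j => simp only [rank]; omega

lemma left_strictMono : StrictMono (left : Fin (p + 1) → JoinPos p q) := by
  refine Monotone.strictMono_of_injective ?_ fun a b h => left.inj h
  exact fun a b h => h

lemma right_strictMono : StrictMono (right : Fin (q + 1) → JoinPos p q) := by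
  refine Monotone.strictMono_of_injective ?_ fun a b h => right.inj h
  exact fun a b h => Nat.add_le_add_left (Fin.le_def.1 h) (p + 1)

end JoinPos

/-- A coherent family of arrows from one chain to another. -/
structure JoinData {p q : ℕ} (c : ComposableArrows D p) (e : ComposableArrows D q) where
  /-- The arrows. -/
  app : ∀ i j, c.obj i ⟶ e.obj j
  /-- Compatibility with the first chain. -/
  natl : ∀ {i i' : Fin (p + 1)} (h : i ≤ i') (j), c.map (homOfLE h) ≫ app i' j = app i j
  /-- Compatibility with the second chain. -/
  natr : ∀ (i) {j j' : Fin (q + 1)} (h : j ≤ j'), app i j ≫ e.map (homOfLE h) = app i j'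

namespace JoinData

variable {p q p' q' : ℕ} {c : ComposableArrows D p} {e : ComposableArrows D q} (φ : JoinData c e)

/-- Restriction to faces. -/
def face (δ : Face p' p) (ε : Face q' q) :
    JoinData (δ.monotone.functor ⋙ c : ComposableArrows D p')
      (ε.monotone.functor ⋙ e : ComposableArrows D q') where
  app i j := φ.app (δ i) (ε j)
  natl h j := φ.natl (δ.monotone h) (ε j)
  natr i _ _ h := φ.natr (δ i) (ε.monotone h)

/-- The image under a functor. -/
def map (M : D ⥤ D') :
    JoinData (c ⋙ M : ComposableArrows D' p) (e ⋙ M : ComposableArrows D' q) where
  app i j := M.map (φ.app i j)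
  natl h j := by
    show M.map _ ≫ M.map _ = _
    rw [← M.map_comp, φ.natl h j]
  natr i _ _ h := by
    show M.map _ ≫ M.map _ = _
    rw [← M.map_comp, φ.natr i h]

/-- The objects of the join. -/
def obj (_φ : JoinData c e) : JoinPos p q → D
  | .left i => c.obj i
  | .right j => e.obj j

/-- The arrows of the join. -/
def hom : (a b : JoinPos p q) → a ≤ b → (φ.obj a ⟶ φ.obj b)
  | .left _, .left _, h => c.map (homOfLE (JoinPos.le_left h))
  | .left i, .right j, _ => φ.app i j
  | .right _, .left _, h => absurd h JoinPos.not_right_le_left
  | .right _, .right _, h => e.map (homOfLE (JoinPos.le_right h))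

/-- The join as a functor. -/
def functor : JoinPos p q ⥤ D where
  obj := φ.obj
  map f := φ.hom _ _ (leOfHom f)
  map_id a := by
    cases a with
    | left i => exact c.map_id i
    | right j => exact e.map_id j
  map_comp {a b d} f g := by
    have hf := leOfHom f
    have hg := leOfHom g
    cases a <;> cases b <;> cases d <;> first
      | exact absurd hf JoinPos.not_right_le_left
      | exact absurd hg JoinPos.not_right_le_left
      | exact c.map_comp (homOfLE (JoinPos.le_left hf)) (homOfLE (JoinPos.le_left hg))
      | exact e.map_comp (homOfLE (JoinPos.le_right hf)) (homOfLE (JoinPos.le_right hg))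
      | exact (φ.natl (JoinPos.le_left hf) _).symm
      | exact (φ.natr _ (JoinPos.le_right hg)).symm

lemma functor_face (δ : Face p' p) (ε : Face q' q) :
    (φ.face δ ε).functor = (JoinPos.face_strictMono δ ε).monotone.functor ⋙ φ.functor := by
  refine CategoryTheory.Functor.ext (fun a => by cases a <;> rfl) fun a b f => ?_
  have hf := leOfHom f
  cases a <;> cases b <;> first
    | exact absurd hf JoinPos.not_right_le_left
    | exact Eq.trans rfl ((Category.id_comp _).trans (Category.comp_id _)).symm

lemma functor_map (M : D ⥤ D') : (φ.map M).functor = φ.functor ⋙ M := by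
  refine CategoryTheory.Functor.ext (fun a => by cases a <;> rfl) fun a b f => ?_
  have hf := leOfHom f
  cases a <;> cases b <;> first
    | exact absurd hf JoinPos.not_right_le_left
    | exact Eq.trans rfl ((Category.id_comp _).trans (Category.comp_id _)).symm

end JoinData

section Value

variable {p q p' q' : ℕ}

/-- The weights of the segment between two points. -/
noncomputable def joinWeights (s : unitInterval) (t : Simp p) (u : Simp q) :
    stdSimplex ℝ (JoinPos p q) :=
  ⟨fun a => match a with
    | .left i => (1 - (s : ℝ)) * t i
    | .right j => (s : ℝ) * u j, fun a => by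
    cases a with
    | left i => exact mul_nonneg (sub_nonneg.2 s.2.2) (stdSimplex.zero_le t i)
    | right j => exact mul_nonneg s.2.1 (stdSimplex.zero_le u j), by
    rw [← Equiv.sum_comp (⟨fun a => a.elim JoinPos.left JoinPos.right, fun a => match a with
      | .left i => Sum.inl i
      | .right j => Sum.inr j, fun a => by cases a <;> rfl, fun a => by cases a <;> rfl⟩ :
        Fin (p + 1) ⊕ Fin (q + 1) ≃ JoinPos p q), Fintype.sum_sum_type]
    simp only [Equiv.coe_fn_mk, Sum.elim_inl, Sum.elim_inr]
    rw [← Finset.mul_sum, ← Finset.mul_sum, stdSimplex.sum_eq_one, stdSimplex.sum_eq_one]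
    ring⟩

lemma joinWeights_left (s : unitInterval) (t : Simp p) (u : Simp q) (i : Fin (p + 1)) :
    joinWeights s t u (.left i) = (1 - (s : ℝ)) * t i := rfl

lemma joinWeights_right (s : unitInterval) (t : Simp p) (u : Simp q) (j : Fin (q + 1)) :
    joinWeights s t u (.right j) = (s : ℝ) * u j := rfl

lemma joinWeights_push (δ : Face p' p) (ε : Face q' q) (s : unitInterval) (t : Simp p')
    (u : Simp q') :
    joinWeights s (push δ t) (push ε u) =
      stdSimplex.map (JoinPos.face δ ε) (joinWeights s t u) := by
  refine stdSimplex.ext (funext fun a => ?_)
  cases a with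
  | left i =>
    rw [joinWeights_left]
    by_cases h : ∃ k, δ k = i
    · obtain ⟨k, rfl⟩ := h
      rw [show (JoinPos.left (δ k) : JoinPos p q) = JoinPos.face δ ε (.left k) from rfl,
        map_apply_of_injective (JoinPos.face_injective δ ε), push_apply, joinWeights_left]
    · rw [not_exists] at h
      rw [push_apply_of_notMem δ t h, mul_zero, map_apply_of_notMem]
      intro b hb
      cases b with
      | left k => exact h k (JoinPos.left.inj hb)
      | right k => simp [JoinPos.face] at hb
  | right j =>
    rw [joinWeights_right]
    by_cases h : ∃ k, ε k = j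
    · obtain ⟨k, rfl⟩ := h
      rw [show (JoinPos.right (ε k) : JoinPos p q) = JoinPos.face δ ε (.right k) from rfl,
        map_apply_of_injective (JoinPos.face_injective δ ε), push_apply, joinWeights_right]
    · rw [not_exists] at h
      rw [push_apply_of_notMem ε u h, mul_zero, map_apply_of_notMem]
      intro b hb
      cases b with
      | left k => simp [JoinPos.face] at hb
      | right k => exact h k (JoinPos.right.inj hb)

variable {c : ComposableArrows D p} {e : ComposableArrows D q}

/-- The point at time `s` of the segment from `mk c t` to `mk e u`. -/
noncomputable def joinVal (φ : JoinData c e) (s : unitInterval) (t : Simp p) (u : Simp q) :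
    BC D :=
  mk (X := nerve D)
    (JoinPos.enum_strictMono.monotone.functor ⋙ φ.functor : ComposableArrows D (p + q + 1))
    (restrict JoinPos.enum_strictMono.injective (joinWeights s t u)
      fun a ha => absurd (JoinPos.mem_range_enum a) ha)

lemma joinVal_eq (φ : JoinData c e) (s : unitInterval) (t : Simp p) (u : Simp q) {m : ℕ}
    {χ : Fin (m + 1) → JoinPos p q} (hχ : StrictMono χ) (r : Simp m)
    (h : stdSimplex.map χ r = joinWeights s t u) :
    joinVal φ s t u =
      mk (X := nerve D) (hχ.monotone.functor ⋙ φ.functor : ComposableArrows D m) r :=
  mk_eq_of_map_eq φ.functor JoinPos.enum_strictMono hχ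
    (restrict JoinPos.enum_strictMono.injective (joinWeights s t u)
      fun a ha => absurd (JoinPos.mem_range_enum a) ha) r ((map_restrict _ _ _).trans h.symm)

lemma joinVal_face (φ : JoinData c e) (δ : Face p' p) (ε : Face q' q) (s : unitInterval)
    (t : Simp p') (u : Simp q') :
    joinVal (φ.face δ ε) s t u = joinVal φ s (push δ t) (push ε u) := by
  rw [joinVal_eq φ s (push δ t) (push ε u)
    ((JoinPos.face_strictMono δ ε).comp JoinPos.enum_strictMono)
    (restrict JoinPos.enum_strictMono.injective (joinWeights s t u)
      fun a ha => absurd (JoinPos.mem_range_enum a) ha)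
    ((stdSimplex.map_comp_apply _ _ _).symm.trans
      ((congrArg (stdSimplex.map (JoinPos.face δ ε)) (map_restrict _ _ _)).trans
        (joinWeights_push δ ε s t u).symm))]
  unfold joinVal
  congr 1
  rw [JoinData.functor_face]
  rfl

lemma joinVal_map (φ : JoinData c e) (M : D ⥤ D') (s : unitInterval) (t : Simp p) (u : Simp q) :
    joinVal (φ.map M) s t u = bmap M (joinVal φ s t u) := by
  unfold joinVal
  rw [bmap_mk, JoinData.functor_map]
  rfl

lemma joinVal_zero (φ : JoinData c e) (t : Simp p) (u : Simp q) :
    joinVal φ 0 t u = mk (X := nerve D) c t := by
  rw [joinVal_eq φ 0 t u JoinPos.left_strictMono t ?_]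
  · refine congrArg (fun d => mk (X := nerve D) d t) ?_
    exact CategoryTheory.Functor.ext (fun a => rfl) fun a b f =>
      Eq.trans rfl ((Category.id_comp _).trans (Category.comp_id _)).symm
  · refine stdSimplex.ext (funext fun a => ?_)
    cases a with
    | left i =>
      rw [map_apply_of_injective JoinPos.left_strictMono.injective, joinWeights_left]
      simp
    | right j =>
      rw [map_apply_of_notMem _ (fun k hk => by simp at hk), joinWeights_right]
      simp

lemma joinVal_one (φ : JoinData c e) (t : Simp p) (u : Simp q) :
    joinVal φ 1 t u = mk (X := nerve D) e u := by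
  rw [joinVal_eq φ 1 t u JoinPos.right_strictMono u ?_]
  · refine congrArg (fun d => mk (X := nerve D) d u) ?_
    exact CategoryTheory.Functor.ext (fun a => rfl) fun a b f =>
      Eq.trans rfl ((Category.id_comp _).trans (Category.comp_id _)).symm
  · refine stdSimplex.ext (funext fun a => ?_)
    cases a with
    | left i =>
      rw [map_apply_of_notMem _ (fun k hk => by simp at hk), joinWeights_left]
      simp
    | right j =>
      rw [map_apply_of_injective JoinPos.right_strictMono.injective, joinWeights_right]
      simp

lemma continuous_joinVal (φ : JoinData c e) :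
    Continuous fun z : unitInterval × (Simp p × Simp q) => joinVal φ z.1 z.2.1 z.2.2 := by
  refine (continuous_mk (X := nerve D) (p + q + 1)).comp
    ((continuous_const (y := simplex (JoinPos.enum_strictMono.monotone.functor ⋙
      φ.functor))).prodMk (Continuous.subtype_mk (continuous_pi fun k => ?_) _))
  have hs : Continuous fun z : unitInterval × (Simp p × Simp q) => (z.1 : ℝ) :=
    continuous_subtype_val.comp continuous_fst
  show Continuous fun z : unitInterval × (Simp p × Simp q) =>
    joinWeights z.1 z.2.1 z.2.2 (JoinPos.enum k)
  cases (JoinPos.enum k : JoinPos p q) with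
  | left i =>
    exact (continuous_const.sub hs).fun_mul
      ((continuous_coord i).comp (continuous_fst.comp continuous_snd))
  | right j => exact hs.fun_mul ((continuous_coord j).comp (continuous_snd.comp continuous_snd))

end Value

end Vale.Agent.P259.Real
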