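import Vale.Agent.P259.Real.Fat
import Mathlib.CategoryTheory.ComposableArrows.Basic
import Mathlib.Topology.CompactOpen
import Mathlib.Topology.UnitInterval
import Mathlib.SetTheory.Cardinal.Finite

/-!
Nerves of categories as semi-simplicial spaces, and the points of their fat realisation given by
weights on the elements of a finite ordered set mapping to the category. (P259.)
-/

namespace Vale.Agent.P259.Real

open CategoryTheory

universe v u v' u'

variable {C : Type u} [Category.{v} C] {D : Type u'} [Category.{v'} D]

/-- The nerve of a category, as a semi-simplicial discrete space. -/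
def nerve (C : Type u) [Category.{v} C] : SSpace.{max u v} where
  obj p := ComposableArrows C p
  top _ := ⊥
  face δ := @ContinuousMap.mk _ _ ⊥ ⊥ (fun c => δ.monotone.functor ⋙ c) continuous_bot
  face_id δ c h := by
    have hδ : δ = OrderEmbedding.ofStrictMono id strictMono_id := by ext i; simp [h i]
    subst hδ
    rfl
  face_comp _ _ _ := rfl

instance (C : Type u) [Category.{v} C] (p : ℕ) : DiscreteTopology ((nerve C).obj p) := ⟨rfl⟩

/-- A chain in a category, as a simplex of the nerve. -/
abbrev simplex {p : ℕ} (c : ComposableArrows C p) : (nerve C).obj p := c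

@[simp]
lemma nerve_face {p q : ℕ} (δ : Face p q) (c : ComposableArrows C q) :
    (nerve C).face δ c = (δ.monotone.functor ⋙ c : ComposableArrows C p) := rfl

/-- The classifying space of a category. -/
abbrev BC (C : Type u) [Category.{v} C] : Type max u v := Fat (nerve C)

/-- The map of nerves induced by a functor. -/
def nerveMap (F : C ⥤ D) : SMap (nerve C) (nerve D) where
  app _ := ⟨fun c => c ⋙ F, continuous_of_discreteTopology⟩
  natural _ _ := rfl

/-- The map of classifying spaces induced by a functor. -/
def bmap (F : C ⥤ D) : C(BC C, BC D) := Fat.map (nerveMap F)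

@[simp]
lemma bmap_mk (F : C ⥤ D) {p : ℕ} (c : ComposableArrows C p) (t : Simp p) :
    bmap F (mk (X := nerve C) c t) = mk (X := nerve D) (c ⋙ F : ComposableArrows D p) t := rfl

lemma bmap_id : bmap (𝟭 C) = ContinuousMap.id (BC C) := by
  ext z
  obtain ⟨p, c, t, rfl⟩ := exists_mk z
  rfl

lemma bmap_comp {E : Type*} [Category E] (F : C ⥤ D) (G : D ⥤ E) :
    bmap (F ⋙ G) = (bmap G).comp (bmap F) := by
  ext z
  obtain ⟨p, c, t, rfl⟩ := exists_mk z
  rfl

/-- The point of an object. -/
noncomputable def vertex (a : C) : BC C :=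
  mk (X := nerve C) (ComposableArrows.mk₀ a) (stdSimplex.vertex 0)

section Order

variable {A B : Type*} [Fintype A] [Fintype B]

lemma map_apply_of_injective {f : A → B} (hf : Function.Injective f) (t : stdSimplex ℝ A)
    (a : A) : stdSimplex.map f t (f a) = t a := by
  classical
  simp only [stdSimplex.map_coe, FunOnFinite.linearMap_apply_apply, hf.eq_iff]
  rw [Finset.sum_filter, Finset.sum_ite_eq' Finset.univ a]
  simp

lemma map_apply_of_notMem {f : A → B} (t : stdSimplex ℝ A) {b : B} (hb : ∀ a, f a ≠ b) :
    stdSimplex.map f t b = 0 := by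
  classical
  simp [FunOnFinite.linearMap_apply_apply, Finset.filter_eq_empty_iff.mpr fun a _ => hb a]

variable {P : Type*} [PartialOrder P] [Fintype P]

/-- Positive weights pushed forward along strictly monotone maps determine the map. -/
lemma eq_of_interior {m n : ℕ} {φ : Fin (m + 1) → P} {ψ : Fin (n + 1) → P}
    (hφ : StrictMono φ) (hψ : StrictMono ψ) {r : Simp m} {s : Simp n}
    (hr : IsInterior r) (hs : IsInterior s)
    (h : stdSimplex.map φ r = stdSimplex.map ψ s) : m = n ∧ Set.range φ = Set.range ψ := by
  have key : ∀ {k : ℕ} {χ : Fin (k + 1) → P} {t : Simp k}, StrictMono χ → IsInterior t →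
      Set.range χ = {a | 0 < stdSimplex.map χ t a} := by
    intro k χ t hχ ht
    ext a
    refine ⟨?_, fun ha => ?_⟩
    · rintro ⟨i, rfl⟩
      show 0 < stdSimplex.map χ t (χ i)
      rw [map_apply_of_injective hχ.injective]
      exact ht i
    · by_contra hc
      have : stdSimplex.map χ t a = 0 := map_apply_of_notMem t fun i hi => hc ⟨i, hi⟩
      exact lt_irrefl (0 : ℝ) (this ▸ ha)
  have hrange : Set.range φ = Set.range ψ := by rw [key hφ hr, key hψ hs, h]
  refine ⟨?_, hrange⟩
  have := congrArg Nat.card (congrArg (fun S : Set P => ↥S) hrange)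
  rw [Nat.card_range_of_injective hφ.injective, Nat.card_range_of_injective hψ.injective] at this
  simpa using this

/-- The point given by a chain in `P` and weights on it depends only on the weights on `P`. -/
lemma mk_eq_of_map_eq (Φ : P ⥤ D) {m n : ℕ} {φ : Fin (m + 1) → P} {ψ : Fin (n + 1) → P}
    (hφ : StrictMono φ) (hψ : StrictMono ψ) (r : Simp m) (s : Simp n)
    (h : stdSimplex.map φ r = stdSimplex.map ψ s) :
    mk (X := nerve D) (hφ.monotone.functor ⋙ Φ : ComposableArrows D m) r =
      mk (X := nerve D) (hψ.monotone.functor ⋙ Φ : ComposableArrows D n) s := by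
  obtain ⟨⟨m', c', r'⟩, δ, hc, hr, hir⟩ :=
    exists_carrier (⟨m, (hφ.monotone.functor ⋙ Φ : ComposableArrows D m), r⟩ : Pre (nerve D))
  obtain ⟨⟨n', d', s'⟩, ε, hd, hs, his⟩ :=
    exists_carrier (⟨n, (hψ.monotone.functor ⋙ Φ : ComposableArrows D n), s⟩ : Pre (nerve D))
  simp only at δ hc hr hir ε hd hs his
  rw [← hr, ← hs]
  refine (glue (X := nerve D) δ _ r').symm.trans (Eq.trans ?_ (glue (X := nerve D) ε _ s'))
  have hφδ : StrictMono (φ ∘ δ) := hφ.comp δ.strictMono
  have hψε : StrictMono (ψ ∘ ε) := hψ.comp ε.strictMono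
  have hh : stdSimplex.map (φ ∘ δ) r' = stdSimplex.map (ψ ∘ ε) s' := by
    refine (stdSimplex.map_comp_apply (⇑δ) φ r').symm.trans
      (Eq.trans ?_ (stdSimplex.map_comp_apply (⇑ε) ψ s'))
    change stdSimplex.map φ (push δ r') = stdSimplex.map ψ (push ε s')
    rw [hr, hs, h]
  obtain ⟨hmn, hrange⟩ := eq_of_interior hφδ hψε hir his hh
  subst hmn
  have hf : φ ∘ δ = ψ ∘ ε := (hφδ.range_inj hψε).1 hrange
  have hrs : r' = s' := by
    refine stdSimplex.ext (funext fun i => ?_)
    rw [← map_apply_of_injective hφδ.injective r' i, hh, hf,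
      map_apply_of_injective hψε.injective s' i]
  subst hrs
  congr 1
  show (hφδ.monotone.functor ⋙ Φ : ComposableArrows D m') = hψε.monotone.functor ⋙ Φ
  congr! 2

omit [PartialOrder P] in
/-- Weights on `P` supported on the range of an injective map, restricted to its source. -/
noncomputable def restrict {φ : A → P} (hφ : Function.Injective φ) (w : stdSimplex ℝ P)
    (h : ∀ a, a ∉ Set.range φ → w a = 0) : stdSimplex ℝ A :=
  ⟨fun i => w (φ i), fun i => stdSimplex.zero_le w _, by
    rw [← stdSimplex.sum_eq_one w]
    exact Fintype.sum_of_injective φ hφ _ _ h fun _ => rfl⟩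

omit [PartialOrder P] in
lemma map_restrict {φ : A → P} (hφ : Function.Injective φ) (w : stdSimplex ℝ P)
    (h : ∀ a, a ∉ Set.range φ → w a = 0) : stdSimplex.map φ (restrict hφ w h) = w := by
  refine stdSimplex.ext (funext fun a => ?_)
  by_cases ha : a ∈ Set.range φ
  · obtain ⟨i, rfl⟩ := ha
    rw [map_apply_of_injective hφ]
    rfl
  · rw [map_apply_of_notMem _ fun i hi => ha ⟨i, hi⟩, h a ha]

end Order

/-- A map out of `I × Fat X`, for discrete `X`, is continuous when it is on every simplex. -/
lemma continuous_interval_prod {X : SSpace.{u}} [∀ p, DiscreteTopology (X.obj p)] {Z : Type*}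
    [TopologicalSpace Z] {g : unitInterval × Fat X → Z}
    (h : ∀ p (x : X.obj p), Continuous fun z : unitInterval × Simp p => g (z.1, mk x z.2)) :
    Continuous g := by
  refine isQuotientMap_quot_mk.continuous_lift_prod_right ?_
  refine Continuous.comp (g := fun z : (Σ p, X.obj p × Simp p) × unitInterval =>
      g (z.2, Quot.mk (Glue X) z.1)) ?_ continuous_swap
  refine (Homeomorph.sigmaProdDistrib
    (X := fun p => X.obj p × Simp p) (Y := unitInterval)).symm.comp_continuous_iff'.1 ?_
  refine continuous_sigma fun p => ?_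
  have : Continuous fun z : X.obj p × (unitInterval × Simp p) => g (z.2.1, mk z.1 z.2.2) :=
    continuous_prod_of_discrete_left.2 fun x => h p x
  exact this.comp (by fun_prop :
    Continuous fun z : (X.obj p × Simp p) × unitInterval => (z.1.1, (z.2, z.1.2)))

end Vale.Agent.P259.Real
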