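import Vale.Agent.P259.Real.Bi

/-!
Interchange of the two double realisations attached to a functor. (P259.)
-/

namespace Vale.Agent.P259.Real

open CategoryTheory Opposite

/-- A map out of `Fat X × W`, for discrete `X` and locally compact `W`, is continuous when it is on
every simplex. -/
lemma continuous_fat_prod {X : SSpace.{0}} [∀ p, DiscreteTopology (X.obj p)] {W Z : Type}
    [TopologicalSpace W] [LocallyCompactSpace W] [TopologicalSpace Z] {g : Fat X × W → Z}
    (h : ∀ p (x : X.obj p), Continuous fun z : Simp p × W => g (mk x z.1, z.2)) :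
    Continuous g := by
  refine isQuotientMap_quot_mk.continuous_lift_prod_left ?_
  refine (Homeomorph.sigmaProdDistrib
    (X := fun p => X.obj p × Simp p) (Y := W)).symm.comp_continuous_iff'.1 ?_
  refine continuous_sigma fun p => ?_
  have : Continuous fun z : X.obj p × (Simp p × W) => g (mk z.1 z.2.1, z.2.2) :=
    continuous_prod_of_discrete_left.2 fun x => h p x
  exact this.comp (by fun_prop :
    Continuous fun z : (X.obj p × Simp p) × W => (z.1.1, (z.1.2, z.2)))

instance (p : ℕ) : LocallyCompactSpace (Simp p) :=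
  have : CompactSpace (Simp p) := isCompact_iff_compactSpace.1 (isCompact_stdSimplex ℝ _)
  inferInstance

/-- A map out of a homotopy colimit is continuous when it is on each fibre times its simplex. -/
lemma hoc_continuous_iff {D : Type} [SmallCategory D] {F : D ⥤ TopCat.{0}} {Z : Type}
    [TopologicalSpace Z] {g : Fat (Hoc F) → Z}
    (h : ∀ p (c : ComposableArrows D p), Continuous fun z : F.obj (c.obj 0) × Simp p =>
      g (mk (X := Hoc F) (⟨c, z.1⟩ : HocObj F p) z.2)) :
    Continuous g := by
  refine continuous_iff.2 fun p => ?_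
  refine (Homeomorph.sigmaProdDistrib
    (X := fun c : (nerve D).obj p => F.obj ((c : ComposableArrows D p).obj 0))
    (Y := Simp p)).symm.comp_continuous_iff'.1 ?_
  exact continuous_sigma fun c => h p c

/-- The same with a time parameter. -/
lemma hoc_continuous_interval {D : Type} [SmallCategory D] {F : D ⥤ TopCat.{0}} {Z : Type}
    [TopologicalSpace Z] {g : unitInterval × Fat (Hoc F) → Z}
    (h : ∀ p (c : ComposableArrows D p),
      Continuous fun z : F.obj (c.obj 0) × (Simp p × unitInterval) =>
        g (z.2.2, mk (X := Hoc F) (⟨c, z.1⟩ : HocObj F p) z.2.1)) :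
    Continuous g := by
  refine isQuotientMap_quot_mk.continuous_lift_prod_right ?_
  refine Continuous.comp (g := fun z : (Σ p, (Hoc F).obj p × Simp p) × unitInterval =>
    g (z.2, Quot.mk _ z.1)) ?_ continuous_swap
  refine (Homeomorph.sigmaProdDistrib
    (X := fun p => (Hoc F).obj p × Simp p) (Y := unitInterval)).symm.comp_continuous_iff'.1 ?_
  refine continuous_sigma fun p => ?_
  let G : (Hoc F).obj p × (Simp p × unitInterval) → Z := fun z => g (z.2.2, mk z.1 z.2.1)
  have hG : Continuous G := by
    refine (Homeomorph.sigmaProdDistrib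
      (X := fun c : (nerve D).obj p => F.obj ((c : ComposableArrows D p).obj 0))
      (Y := Simp p × unitInterval)).symm.comp_continuous_iff'.1 ?_
    exact continuous_sigma fun c => h p c
  exact hG.comp (by fun_prop :
    Continuous fun z : ((Hoc F).obj p × Simp p) × unitInterval => (z.1.1, (z.1.2, z.2)))

variable {A D : Type} [SmallCategory A] [SmallCategory D] (L : A ⥤ D)

/-- The interchange on a fibre of the first double realisation. -/
noncomputable def toSliceFun {p : ℕ} (c : ComposableArrows Dᵒᵖ p) (x : Simp p)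
    (e : BC (StructuredArrow (c.obj 0).unop L)) : Fat (Hoc (sliceF L)) :=
  Quot.lift (fun w : Pre (nerve (StructuredArrow (c.obj 0).unop L)) =>
      (BiData.ofRow c (w.2.1 : ComposableArrows _ w.1)).colPt x w.2.2)
    (by rintro _ _ ⟨ε, o, y⟩; exact BiData.colPt_faceA (BiData.ofRow c o) ε x y) e

/-- The interchange on a fibre of the second double realisation. -/
noncomputable def toCommaFun {q : ℕ} (a : ComposableArrows A q) (y : Simp q)
    (e : BC (Over (L.obj (a.obj 0)))ᵒᵖ) : Fat (Hoc (commaF L)) :=
  Quot.lift (fun w : Pre (nerve (Over (L.obj (a.obj 0)))ᵒᵖ) =>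
      (BiData.ofCol a (w.2.1 : ComposableArrows _ w.1)).rowPt w.2.2 y)
    (by rintro _ _ ⟨δ, o, x⟩; exact BiData.rowPt_faceC (BiData.ofCol a o) δ x y) e

/-- From the first double realisation to the second. -/
noncomputable def toSlice : C(Fat (Hoc (commaF L)), Fat (Hoc (sliceF L))) where
  toFun := Quot.lift (fun w : Pre (Hoc (commaF L)) => toSliceFun L w.2.1.1 w.2.2 w.2.1.2) (by
    rintro _ _ ⟨δ, ⟨c, e⟩, x⟩
    obtain ⟨q, o, y, rfl⟩ := exists_mk (X := nerve (StructuredArrow _ L)) e
    exact (congrArg (fun Φ => BiData.colPt Φ x y) (BiData.ofRow_face c o δ)).trans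
      (BiData.colPt_faceC (BiData.ofRow c o) δ x y))
  continuous_toFun := hoc_continuous_iff fun p c => continuous_fat_prod fun q o => by
    let Φ := BiData.ofRow (L := L) c (o : ComposableArrows _ q)
    have h1 : Continuous fun z : Simp q × Simp p =>
        ((⟨Φ.a, mk (X := nerve (Over (L.obj (Φ.a.obj 0)))ᵒᵖ) Φ.col z.2⟩ : HocObj (sliceF L) q),
          z.1) :=
      ((@continuous_sigmaMk _
          (fun a : (nerve A).obj q => (sliceF L).obj ((a : ComposableArrows A q).obj 0)) _ Φ.a).comp
        ((continuous_mk p).comp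
          ((continuous_const (y := simplex Φ.col)).prodMk continuous_snd))).prodMk continuous_fst
    exact (continuous_mk (X := Hoc (sliceF L)) q).comp h1

/-- From the second double realisation to the first. -/
noncomputable def toComma : C(Fat (Hoc (sliceF L)), Fat (Hoc (commaF L))) where
  toFun := Quot.lift (fun w : Pre (Hoc (sliceF L)) => toCommaFun L w.2.1.1 w.2.2 w.2.1.2) (by
    rintro _ _ ⟨ε, ⟨a, e⟩, y⟩
    obtain ⟨p, o, x, rfl⟩ := exists_mk (X := nerve (Over _)ᵒᵖ) e
    exact (congrArg (fun Φ => BiData.rowPt Φ x y) (BiData.ofCol_face a o ε)).trans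
      (BiData.rowPt_faceA (BiData.ofCol a o) ε x y))
  continuous_toFun := hoc_continuous_iff fun q a => continuous_fat_prod fun p o => by
    let Φ := BiData.ofCol (L := L) a (o : ComposableArrows _ p)
    have h1 : Continuous fun z : Simp p × Simp q =>
        ((⟨Φ.c, mk (X := nerve (StructuredArrow (Φ.c.obj 0).unop L)) Φ.row z.2⟩ :
          HocObj (commaF L) p), z.1) :=
      ((@continuous_sigmaMk _
          (fun c : (nerve Dᵒᵖ).obj p => (commaF L).obj ((c : ComposableArrows Dᵒᵖ p).obj 0)) _
          Φ.c).comp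
        ((continuous_mk q).comp
          ((continuous_const (y := simplex Φ.row)).prodMk continuous_snd))).prodMk continuous_fst
    exact (continuous_mk (X := Hoc (commaF L)) p).comp h1

lemma toSlice_rowPt {p q : ℕ} (Φ : BiData L p q) (x : Simp p) (y : Simp q) :
    toSlice L (Φ.rowPt x y) = Φ.colPt x y := by
  show (BiData.ofRow Φ.c Φ.row).colPt x y = Φ.colPt x y
  rw [BiData.ofRow_row]

lemma toComma_colPt {p q : ℕ} (Φ : BiData L p q) (x : Simp p) (y : Simp q) :
    toComma L (Φ.colPt x y) = Φ.rowPt x y := by
  show (BiData.ofCol Φ.a Φ.col).rowPt x y = Φ.rowPt x y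
  rw [BiData.ofCol_col]

lemma toComma_toSlice (z : Fat (Hoc (commaF L))) : toComma L (toSlice L z) = z := by
  obtain ⟨p, ⟨c, e⟩, x, rfl⟩ := exists_mk z
  obtain ⟨q, o, y, rfl⟩ := exists_mk (X := nerve (StructuredArrow _ L)) e
  refine (toComma_colPt L (BiData.ofRow c o) x y).trans ?_
  exact congrArg (fun o' => mk (X := Hoc (commaF L))
    (⟨c, mk (X := nerve (StructuredArrow _ L)) o' y⟩ : HocObj (commaF L) p) x)
    (BiData.row_ofRow c o)

lemma toSlice_toComma (z : Fat (Hoc (sliceF L))) : toSlice L (toComma L z) = z := by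
  obtain ⟨q, ⟨a, e⟩, y, rfl⟩ := exists_mk z
  obtain ⟨p, o, x, rfl⟩ := exists_mk (X := nerve (Over _)ᵒᵖ) e
  refine (toSlice_rowPt L (BiData.ofCol a o) x y).trans ?_
  exact congrArg (fun o' => mk (X := Hoc (sliceF L))
    (⟨a, mk (X := nerve (Over _)ᵒᵖ) o' x⟩ : HocObj (sliceF L) q) y) (BiData.col_ofCol a o)

/-- The interchange. -/
noncomputable def swapHomeo : Fat (Hoc (commaF L)) ≃ₜ Fat (Hoc (sliceF L)) where
  toFun := toSlice L
  invFun := toComma L
  left_inv := toComma_toSlice L
  right_inv := toSlice_toComma L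
  continuous_toFun := (toSlice L).continuous
  continuous_invFun := (toComma L).continuous

end Vale.Agent.P259.Real
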